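import Crest.Agent.PR.ChainState
import Crest.Agent.PR.Hell

/-!
# The expansions of the Chain WP as sums over question strings, Hellinger application.

`gWin St C z` is the conditional probability of winning on `C` given the question string `z`.
* `sum_mu_gWin`: its average is `winSub St C`.
* `expansion_off`: the kernel expansion with weights `wAcc` on `C` and weights of marginal `prob`
  off `C` is `winSub St C`.
* `expansion_del`: the same with a point mass at coordinate `i ∉ C`.
* `hell_leaf`: `hellinger_chain` for these.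
-/

namespace Crest.Agent.PR.ChainAux

open Crest.MathPhysics.NonlocalGame Matrix
open scoped Kronecker ComplexOrder
open Crest.Agent.PR

variable {G : Game} {k dA dB : ℕ}

/-- the question distribution as a function of the pair -/
noncomputable def muZ (G : Game) (e : Fin G.nX × Fin G.nY) : ℝ := G.prob e.1 e.2

lemma muZ_nonneg (e : Fin G.nX × Fin G.nY) : 0 ≤ muZ G e := G.prob_nonneg _ _

lemma muZ_sum : ∑ e, muZ G e = 1 := by
  rw [Fintype.sum_prod_type]
  exact G.prob_sum

/-- probability of winning on `C` given the question string `z` -/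
noncomputable def gWin (St : Strategy G k dA dB) (C : Finset (Fin k))
    (z : Fin k → Fin G.nX × Fin G.nY) : ℝ :=
  ∑ a : Fin k → Fin G.nA, ∑ b : Fin k → Fin G.nB,
    if ∀ j ∈ C, G.accept (z j).1 (z j).2 (a j) (b j) = true then
      St.answerProb (fun j => (z j).1) (fun j => (z j).2) a b else 0

lemma answerProb_eq_ev (St : Strategy G k dA dB) (x y a b) :
    St.answerProb x y a b = ev St.ψ (St.M x a) (St.N y b) := rfl

lemma answerProb_nonneg (St : Strategy G k dA dB) (x y a b) : 0 ≤ St.answerProb x y a b := by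
  rw [answerProb_eq_ev]
  exact ev_nonneg' (St.M_posSemidef x a) (St.N_posSemidef y b)

lemma sum_answerProb (St : Strategy G k dA dB) (x y) :
    ∑ a, ∑ b, St.answerProb x y a b = 1 := by
  simp only [answerProb_eq_ev]
  have h1 : ∀ a, ∑ b, ev St.ψ (St.M x a) (St.N y b) = ev St.ψ (St.M x a) 1 := fun a => by
    rw [← St.N_sum y, ev_sum_right]
  simp only [h1]
  rw [← ev_sum_left, St.M_sum, ev_one_one]
  exact St.ψ_norm

lemma gWin_nonneg (St : Strategy G k dA dB) (C : Finset (Fin k)) (z) : 0 ≤ gWin St C z := by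
  refine Finset.sum_nonneg fun a _ => Finset.sum_nonneg fun b _ => ?_
  split_ifs
  · exact answerProb_nonneg St _ _ _ _
  · exact le_rfl

lemma gWin_le_one (St : Strategy G k dA dB) (C : Finset (Fin k)) (z) : gWin St C z ≤ 1 := by
  rw [← sum_answerProb St (fun j => (z j).1) (fun j => (z j).2)]
  refine Finset.sum_le_sum fun a _ => Finset.sum_le_sum fun b _ => ?_
  split_ifs
  · exact le_rfl
  · exact answerProb_nonneg St _ _ _ _

/-- a sum over strings of pairs is a sum over pairs of strings -/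
lemma sum_pi_prod (F : (Fin k → Fin G.nX) → (Fin k → Fin G.nY) → ℝ) :
    ∑ z : Fin k → Fin G.nX × Fin G.nY, F (fun j => (z j).1) (fun j => (z j).2)
      = ∑ x, ∑ y, F x y := by
  rw [← Fintype.sum_prod_type']
  exact Fintype.sum_equiv (Equiv.arrowProdEquivProdArrow _ _ _) _ _ fun z => rfl

lemma sum_mu_gWin (St : Strategy G k dA dB) (C : Finset (Fin k)) :
    ∑ z, (∏ j, muZ G (z j)) * gWin St C z = winSub St C := by
  unfold winSub gWin muZ
  exact sum_pi_prod (G := G) (fun x y => (∏ i, G.prob (x i) (y i)) *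
    ∑ a : Fin k → Fin G.nA, ∑ b : Fin k → Fin G.nB,
      if ∀ i ∈ C, G.accept (x i) (y i) (a i) (b i) = true then St.answerProb x y a b else 0)

lemma prod_accept (C : Finset (Fin k)) (p : Fin k → Prop) [DecidablePred p] :
    ∏ j, (if j ∈ C then (if p j then (1 : ℝ) else 0) else 1) = if ∀ j ∈ C, p j then 1 else 0 := by
  rw [Finset.prod_ite_mem, Finset.univ_inter, Finset.prod_ite_zero]
  simp

/-- per-coordinate factorisation of the coefficient of an expansion -/
lemma cc_factor (C : Finset (Fin k)) (W : Fin k → Kst G → ℝ) (hC : ∀ j ∈ C, W j = wAcc)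
    (A : Fin k → Fin G.nX → Fin G.nY → ℝ)
    (hO : ∀ j, j ∉ C → ∀ x y a b, cc (W j) x y a b = A j x y)
    (hA : ∀ j ∈ C, ∀ x y, A j x y = G.prob x y)
    (x : Fin k → Fin G.nX) (y : Fin k → Fin G.nY) (a : Fin k → Fin G.nA) (b : Fin k → Fin G.nB) :
    ∏ j, cc (W j) (x j) (y j) (a j) (b j)
      = (∏ j, A j (x j) (y j)) * if ∀ j ∈ C, G.accept (x j) (y j) (a j) (b j) = true then 1 else 0 := by
  rw [← prod_accept, ← Finset.prod_mul_distrib]
  refine Finset.prod_congr rfl fun j _ => ?_
  by_cases hj : j ∈ C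
  · rw [hC j hj, cc_wAcc, if_pos hj, hA j hj]
    split_ifs <;> simp
  · rw [hO j hj, if_neg hj, mul_one]

/-- the common core of the two expansions -/
lemma expansion_core (St : Strategy G k dA dB) (C : Finset (Fin k)) (W : Fin k → Kst G → ℝ)
    (hC : ∀ j ∈ C, W j = wAcc) (A : Fin k → Fin G.nX → Fin G.nY → ℝ)
    (hO : ∀ j, j ∉ C → ∀ x y a b, cc (W j) x y a b = A j x y)
    (hA : ∀ j ∈ C, ∀ x y, A j x y = G.prob x y) :
    ∑ ω, Wt W ω * ev St.ψ (Top St (fun j => PK (ω j))) (Sop St (fun j => QK (ω j)))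
      = ∑ z : Fin k → Fin G.nX × Fin G.nY, (∏ j, A j (z j).1 (z j).2) * gWin St C z := by
  rw [expansion]
  unfold gWin
  refine Eq.trans ?_ (sum_pi_prod (G := G) (fun x y => (∏ j, A j (x j) (y j)) *
    ∑ a : Fin k → Fin G.nA, ∑ b : Fin k → Fin G.nB,
      if ∀ j ∈ C, G.accept (x j) (y j) (a j) (b j) = true then St.answerProb x y a b else 0)).symm
  refine Finset.sum_congr rfl fun x _ => Finset.sum_congr rfl fun y _ => ?_
  rw [Finset.mul_sum]
  refine Finset.sum_congr rfl fun a _ => ?_
  rw [Finset.mul_sum]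
  refine Finset.sum_congr rfl fun b _ => ?_
  rw [cc_factor C W hC A hO hA]
  split_ifs <;> simp

/-- weights `wAcc` on `C`, marginal `prob` off `C`: the expansion is `winSub`. -/
lemma expansion_off (St : Strategy G k dA dB) (C : Finset (Fin k)) (W : Fin k → Kst G → ℝ)
    (hC : ∀ j ∈ C, W j = wAcc)
    (hO : ∀ j, j ∉ C → ∀ x y a b, cc (W j) x y a b = G.prob x y) :
    ∑ ω, Wt W ω * ev St.ψ (Top St (fun j => PK (ω j))) (Sop St (fun j => QK (ω j)))
      = winSub St C := by
  rw [expansion_core St C W hC (fun _ x y => G.prob x y) hO (fun _ _ _ _ => rfl), ← sum_mu_gWin]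
  rfl

/-- weights `wAcc` on `C`, marginal `prob` off `C`, point mass at `i ∉ C`. -/
lemma expansion_del (St : Strategy G k dA dB) (C : Finset (Fin k)) (i : Fin k) (hi : i ∉ C)
    (x₀ : Fin G.nX) (y₀ : Fin G.nY) (W : Fin k → Kst G → ℝ)
    (hC : ∀ j ∈ C, W j = wAcc)
    (hO : ∀ j, j ∉ C → j ≠ i → ∀ x y a b, cc (W j) x y a b = G.prob x y)
    (hW : W i = wDel x₀ y₀) :
    ∑ ω, Wt W ω * ev St.ψ (Top St (fun j => PK (ω j))) (Sop St (fun j => QK (ω j)))
      = ∑ z : Fin k → Fin G.nX × Fin G.nY, (∏ j ∈ Finset.univ.erase i, muZ G (z j)) *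
          (if z i = (x₀, y₀) then gWin St C z else 0) := by
  classical
  let A : Fin k → Fin G.nX → Fin G.nY → ℝ := fun j x y =>
    if j = i then (if x = x₀ ∧ y = y₀ then 1 else 0) else G.prob x y
  have hO' : ∀ j, j ∉ C → ∀ x y a b, cc (W j) x y a b = A j x y := by
    intro j hj x y a b
    by_cases hji : j = i
    · subst hji
      rw [hW, cc_wDel]
      simp [A]
    · rw [hO j hj hji]
      simp [A, hji]
  have hA : ∀ j ∈ C, ∀ x y, A j x y = G.prob x y := by
    intro j hj x y
    have : j ≠ i := fun h => hi (h ▸ hj)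
    simp [A, this]
  rw [expansion_core St C W hC A hO' hA]
  refine Finset.sum_congr rfl fun z _ => ?_
  rw [← Finset.mul_prod_erase Finset.univ _ (Finset.mem_univ i)]
  have h1 : ∏ j ∈ Finset.univ.erase i, A j (z j).1 (z j).2
      = ∏ j ∈ Finset.univ.erase i, muZ G (z j) := by
    refine Finset.prod_congr rfl fun j hj => ?_
    simp [A, Finset.ne_of_mem_erase hj, muZ]
  rw [h1]
  have h2 : A i (z i).1 (z i).2 = if z i = (x₀, y₀) then 1 else 0 := by
    simp only [A, if_true]
    by_cases h : z i = (x₀, y₀)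
    · simp [h]
    · have : ¬ ((z i).1 = x₀ ∧ (z i).2 = y₀) := fun ⟨h3, h4⟩ => h (Prod.ext h3 h4)
      simp [h, this]
  rw [h2]
  split_ifs <;> ring

/-- `hellinger_chain` applied to `gWin`. -/
lemma hell_leaf (St : Strategy G k dA dB) (C : Finset (Fin k)) (hZ : 0 < winSub St C)
    (D : Finset (Fin k)) (cm : Fin k → Fin G.nX → Fin G.nY → ℝ)
    (hcm : ∀ i ∈ D, ∀ x y, cm i x y = ∑ z : Fin k → Fin G.nX × Fin G.nY,
      (∏ j ∈ Finset.univ.erase i, muZ G (z j)) * (if z i = (x, y) then gWin St C z else 0)) :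
    ∑ i ∈ D, ∑ x, ∑ y, G.prob x y * (Real.sqrt (cm i x y / winSub St C) - 1) ^ 2
      ≤ Real.log (1 / winSub St C) := by
  have h := hellinger_chain (k := k) (muZ G) muZ_nonneg muZ_sum (gWin St C) (gWin_nonneg St C)
    (gWin_le_one St C) (by rw [sum_mu_gWin]; exact hZ) D
  rw [sum_mu_gWin] at h
  refine le_of_eq_of_le ?_ h
  refine Finset.sum_congr rfl fun i hi => ?_
  rw [Fintype.sum_prod_type]
  refine Finset.sum_congr rfl fun x _ => Finset.sum_congr rfl fun y _ => ?_
  rw [hcm i hi]
  rfl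

end Crest.Agent.PR.ChainAux
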