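import Crest.Agent.PR.Defs

/-!
# WP ChainOps: the potential `Φ(T,S) = -ev ψ (xlog T) S - ev ψ T (xlog S)`.

Both statements are proved by expanding in the eigenbases of `T` and `S`:
all three of `ev ψ (xlog T) S`, `ev ψ T (xlog S)`, `ev ψ T S` are weighted sums with the same weights
`‖((Uᴴ ⊗ Vᴴ) ψ) p‖²` (which sum to `‖ψ‖²`).
-/

namespace Crest.Agent.PR

open Crest.MathPhysics.NonlocalGame Matrix
open scoped Kronecker ComplexOrder

section ChainOps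

variable {I J : Type} [Fintype I] [Fintype J] [DecidableEq I] [DecidableEq J]

/-- `ev` of two conjugated diagonal matrices is a weighted sum. -/
lemma ev_conj_diagonal (ψ : I × J → ℂ) (U : Matrix I I ℂ) (V : Matrix J J ℂ) (f : I → ℝ) (g : J → ℝ) :
    ev ψ (U * diagonal (fun i => (f i : ℂ)) * Uᴴ) (V * diagonal (fun j => (g j : ℂ)) * Vᴴ)
      = ∑ p : I × J, ‖((Uᴴ ⊗ₖ Vᴴ) *ᵥ ψ) p‖ ^ 2 * (f p.1 * g p.2) := by
  have hk : (U * diagonal (fun i => (f i : ℂ)) * Uᴴ) ⊗ₖ (V * diagonal (fun j => (g j : ℂ)) * Vᴴ)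
      = (Uᴴ ⊗ₖ Vᴴ)ᴴ * (diagonal (fun p : I × J => ((f p.1 : ℂ) * (g p.2 : ℂ)))) * (Uᴴ ⊗ₖ Vᴴ) := by
    rw [Matrix.mul_kronecker_mul, Matrix.mul_kronecker_mul, Matrix.diagonal_kronecker_diagonal]
    rw [Matrix.conjTranspose_kronecker]
    simp only [conjTranspose_conjTranspose]
  unfold ev
  rw [hk]
  set φ : I × J → ℂ := (Uᴴ ⊗ₖ Vᴴ) *ᵥ ψ with hφ
  have hd : star ψ ⬝ᵥ ((Uᴴ ⊗ₖ Vᴴ)ᴴ * diagonal (fun p : I × J => ((f p.1 : ℂ) * (g p.2 : ℂ))) * (Uᴴ ⊗ₖ Vᴴ)) *ᵥ ψ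
      = star φ ⬝ᵥ (diagonal (fun p : I × J => ((f p.1 : ℂ) * (g p.2 : ℂ)))) *ᵥ φ := by
    rw [hφ, Matrix.star_mulVec, ← Matrix.mulVec_mulVec, ← Matrix.mulVec_mulVec,
      Matrix.dotProduct_mulVec, Matrix.dotProduct_mulVec]
  rw [hd]
  simp only [dotProduct, mulVec_diagonal, Pi.star_apply]
  rw [Complex.re_sum]
  refine Finset.sum_congr rfl fun p _ => ?_
  have h1 : star (φ p) * ((f p.1 : ℂ) * (g p.2 : ℂ) * φ p)
      = ((‖φ p‖ ^ 2 * (f p.1 * g p.2) : ℝ) : ℂ) := by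
    have : star (φ p) * φ p = ((‖φ p‖ ^ 2 : ℝ) : ℂ) := by
      rw [Complex.star_def, Complex.conj_mul']; push_cast; ring
    calc star (φ p) * ((f p.1 : ℂ) * (g p.2 : ℂ) * φ p)
        = (star (φ p) * φ p) * ((f p.1 : ℂ) * (g p.2 : ℂ)) := by ring
      _ = _ := by rw [this]; push_cast; ring
  rw [h1, Complex.ofReal_re]

/-- the weights sum to the squared norm when `U`, `V` are unitary. -/
lemma sum_norm_sq_unitary (ψ : I × J → ℂ) (U : Matrix I I ℂ) (V : Matrix J J ℂ)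
    (hU : U * Uᴴ = 1) (hV : V * Vᴴ = 1) :
    ∑ p : I × J, ‖((Uᴴ ⊗ₖ Vᴴ) *ᵥ ψ) p‖ ^ 2 = nsq ψ := by
  have key : ∀ φ : I × J → ℂ, ((∑ p, ‖φ p‖ ^ 2 : ℝ) : ℂ) = star φ ⬝ᵥ φ := by
    intro φ
    simp only [dotProduct, Pi.star_apply]
    push_cast
    refine Finset.sum_congr rfl fun p _ => ?_
    rw [Complex.star_def, Complex.conj_mul']
  have hW : (Uᴴ ⊗ₖ Vᴴ)ᴴ * (Uᴴ ⊗ₖ Vᴴ) = 1 := by
    rw [Matrix.conjTranspose_kronecker, ← Matrix.mul_kronecker_mul]
    rw [conjTranspose_conjTranspose, conjTranspose_conjTranspose, hU, hV, Matrix.one_kronecker_one]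
  apply Complex.ofReal_injective
  unfold nsq
  rw [key, key, Matrix.star_mulVec, Matrix.dotProduct_mulVec, Matrix.vecMul_vecMul, hW, Matrix.vecMul_one]

/-- Eigenvalue data of a positive semidefinite matrix. -/
lemma cfc_eq_conj {A : Matrix I I ℂ} (hA : A.IsHermitian) (f : ℝ → ℝ) :
    cfc f A = (hA.eigenvectorUnitary : Matrix I I ℂ) * diagonal (fun i => ((f (hA.eigenvalues i) : ℝ) : ℂ))
      * (hA.eigenvectorUnitary : Matrix I I ℂ)ᴴ := by
  rw [hA.cfc_eq, IsHermitian.cfc, Unitary.conjStarAlgAut_apply, Matrix.star_eq_conjTranspose]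
  rfl

lemma self_eq_conj {A : Matrix I I ℂ} (hA : A.IsHermitian) :
    A = (hA.eigenvectorUnitary : Matrix I I ℂ) * diagonal (fun i => ((hA.eigenvalues i : ℝ) : ℂ))
      * (hA.eigenvectorUnitary : Matrix I I ℂ)ᴴ := by
  conv_lhs => rw [hA.spectral_theorem, Unitary.conjStarAlgAut_apply, Matrix.star_eq_conjTranspose]
  rfl

lemma eigenvectorUnitary_mul_conjTranspose {A : Matrix I I ℂ} (hA : A.IsHermitian) :
    (hA.eigenvectorUnitary : Matrix I I ℂ) * (hA.eigenvectorUnitary : Matrix I I ℂ)ᴴ = 1 := by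
  rw [← Matrix.star_eq_conjTranspose]
  exact Unitary.coe_mul_star_self _

lemma eigenvalue_le_one {A : Matrix I I ℂ} (hA : A.PosSemidef) (h1 : (1 - A).PosSemidef) (i : I) :
    hA.1.eigenvalues i ≤ 1 := by
  have h := h1.re_dotProduct_nonneg (hA.1.eigenvectorBasis i : I → ℂ)
  have he := hA.1.eigenvalues_eq i
  have hn : RCLike.re (star (hA.1.eigenvectorBasis i : I → ℂ) ⬝ᵥ (hA.1.eigenvectorBasis i : I → ℂ)) = 1 := by
    have := hA.1.eigenvectorBasis.orthonormal.1 i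
    rw [dotProduct_comm, ← EuclideanSpace.inner_eq_star_dotProduct, inner_self_eq_norm_sq_to_K, this]
    simp
  rw [Matrix.sub_mulVec, Matrix.one_mulVec, dotProduct_sub, map_sub, hn, ← he] at h
  linarith

private lemma mul_log_nonpos' {t : ℝ} (h0 : 0 ≤ t) (h1 : t ≤ 1) : t * Real.log t ≤ 0 :=
  mul_nonpos_of_nonneg_of_nonpos h0 (Real.log_nonpos h0 h1)

/-- `φ(tτ) = φ(t)τ + tφ(τ)` for `t, τ ≥ 0`. -/
private lemma negMulLog_mul' {t τ : ℝ} :
    Real.negMulLog (t * τ) = -((t * Real.log t) * τ) - t * (τ * Real.log τ) := by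
  unfold Real.negMulLog
  by_cases ht : t = 0
  · simp [ht]
  by_cases hτ : τ = 0
  · simp [hτ]
  rw [Real.log_mul ht hτ]; ring

/-- The common expansion. -/
lemma Phi_expansion (ψ : I × J → ℂ) {T : Matrix I I ℂ} {S : Matrix J J ℂ}
    (hT : T.IsHermitian) (hS : S.IsHermitian) :
    ∃ q : I × J → ℝ, (∀ p, 0 ≤ q p) ∧ ∑ p, q p = nsq ψ ∧
      ev ψ T S = ∑ p, q p * (hT.eigenvalues p.1 * hS.eigenvalues p.2) ∧
      ev ψ (xlog T) S = ∑ p, q p * ((hT.eigenvalues p.1 * Real.log (hT.eigenvalues p.1)) * hS.eigenvalues p.2) ∧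
      ev ψ T (xlog S) = ∑ p, q p * (hT.eigenvalues p.1 * (hS.eigenvalues p.2 * Real.log (hS.eigenvalues p.2))) := by
  refine ⟨fun p => ‖(((hT.eigenvectorUnitary : Matrix I I ℂ)ᴴ ⊗ₖ (hS.eigenvectorUnitary : Matrix J J ℂ)ᴴ) *ᵥ ψ) p‖ ^ 2,
    fun p => by positivity, ?_, ?_, ?_, ?_⟩
  · exact sum_norm_sq_unitary ψ _ _ (eigenvectorUnitary_mul_conjTranspose hT) (eigenvectorUnitary_mul_conjTranspose hS)
  · conv_lhs => rw [self_eq_conj hT, self_eq_conj hS]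
    exact ev_conj_diagonal ψ _ _ hT.eigenvalues hS.eigenvalues
  · unfold xlog
    conv_lhs => rw [cfc_eq_conj hT, self_eq_conj hS]
    exact ev_conj_diagonal ψ _ _ (fun i => hT.eigenvalues i * Real.log (hT.eigenvalues i)) hS.eigenvalues
  · unfold xlog
    conv_lhs => rw [self_eq_conj hT, cfc_eq_conj hS]
    exact ev_conj_diagonal ψ _ _ hT.eigenvalues (fun j => hS.eigenvalues j * Real.log (hS.eigenvalues j))

/-- (Chain end) the potential is nonnegative for `0 ≤ T, S ≤ 1`. -/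
theorem Phi_nonneg (ψ : I × J → ℂ) {T : Matrix I I ℂ} {S : Matrix J J ℂ}
    (hT : T.PosSemidef) (hS : S.PosSemidef)
    (hT1 : (1 - T).PosSemidef) (hS1 : (1 - S).PosSemidef) :
    0 ≤ -ev ψ (xlog T) S - ev ψ T (xlog S) := by
  obtain ⟨q, hq, -, -, h2, h3⟩ := Phi_expansion ψ hT.1 hS.1
  rw [h2, h3, ← Finset.sum_neg_distrib, ← Finset.sum_sub_distrib]
  refine Finset.sum_nonneg fun p _ => ?_
  have a0 := hT.eigenvalues_nonneg p.1
  have a1 := eigenvalue_le_one hT hT1 p.1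
  have b0 := hS.eigenvalues_nonneg p.2
  have b1 := eigenvalue_le_one hS hS1 p.2
  have c1 := mul_log_nonpos' a0 a1
  have c2 := mul_log_nonpos' b0 b1
  have d1 : 0 ≤ -((hT.1.eigenvalues p.1 * Real.log (hT.1.eigenvalues p.1)) * hS.1.eigenvalues p.2) := by
    have := mul_nonpos_of_nonpos_of_nonneg c1 b0
    linarith
  have d2 : 0 ≤ -(hT.1.eigenvalues p.1 * (hS.1.eigenvalues p.2 * Real.log (hS.1.eigenvalues p.2))) := by
    have := mul_nonpos_of_nonneg_of_nonpos a0 c2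
    linarith
  have := mul_nonneg (hq p) (add_nonneg d1 d2)
  nlinarith [this]

/-- (Chain start) `Φ(T,S) ≤ -N log N`, `N = ev ψ T S`: expand in the eigenbases, concavity of `-t log t`. -/
theorem Phi_le_negMulLog (ψ : I × J → ℂ) (hψ : nsq ψ = 1) {T : Matrix I I ℂ} {S : Matrix J J ℂ}
    (hT : T.PosSemidef) (hS : S.PosSemidef) :
    -ev ψ (xlog T) S - ev ψ T (xlog S) ≤ Real.negMulLog (ev ψ T S) := by
  obtain ⟨q, hq, hq1, h1, h2, h3⟩ := Phi_expansion ψ hT.1 hS.1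
  rw [hψ] at hq1
  rw [h1, h2, h3]
  have hJ := Real.concaveOn_negMulLog.le_map_sum (t := Finset.univ) (w := q)
    (p := fun p : I × J => hT.1.eigenvalues p.1 * hS.1.eigenvalues p.2)
    (fun p _ => hq p) hq1
    (fun p _ => mul_nonneg (hT.eigenvalues_nonneg p.1) (hS.eigenvalues_nonneg p.2))
  simp only [smul_eq_mul] at hJ
  refine le_trans (le_of_eq ?_) hJ
  rw [← Finset.sum_neg_distrib, ← Finset.sum_sub_distrib]
  refine Finset.sum_congr rfl fun p _ => ?_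
  rw [negMulLog_mul']
  ring

end ChainOps

end Crest.Agent.PR
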