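import Mathlib

/-!
# Parallel repetition: logarithmic buckets with random offsets (layers Q4, Q5, scalar part)

`K ≥ 1`, `b = 1 + 1/K`, `ρ = log b / K`, `f(t) = ⌊log t / ρ⌋`, `g_l(t) = ⌊(f(t)+l)/K⌋`, `φ_l(α)² = b^(g_l(α²) - l/K)`.
Purely real lemmas; no matrices here.
-/

namespace Crest.Agent.PR.Buckets

/-- the base `b = 1 + 1/K` -/
noncomputable def base (K : ℕ) : ℝ := 1 + 1 / (K : ℝ)

/-- the step `ρ = log b / K` -/
noncomputable def step (K : ℕ) : ℝ := Real.log (base K) / (K : ℝ)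

/-- the fine index `f(t) = ⌊log t / ρ⌋` -/
noncomputable def fineIdx (K : ℕ) (t : ℝ) : ℤ := ⌊Real.log t / step K⌋

/-- the bucket with offset `l`: `g_l(t) = ⌊(f(t) + l) / K⌋` (integer floor division) -/
noncomputable def bucket (K l : ℕ) (t : ℝ) : ℤ := (fineIdx K t + (l : ℤ)) / (K : ℤ)

/-- the representative of bucket `g` with offset `l`: `b^(g - l/K)` -/
noncomputable def rep (K l : ℕ) (g : ℤ) : ℝ := base K ^ ((g : ℝ) - (l : ℝ) / (K : ℝ))

/-- `φ_l(α) = √(b^(g_l(α²) - l/K))` -/
noncomputable def phi (K l : ℕ) (α : ℝ) : ℝ := Real.sqrt (rep K l (bucket K l (α ^ 2)))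

/-- the averaged kernel: `avg_l φ_l(α) 1[α, β > 0, same bucket]` -/
noncomputable def kbar (K : ℕ) (α β : ℝ) : ℝ :=
  (K : ℝ)⁻¹ * ∑ l ∈ Finset.range K,
    if 0 < α ∧ 0 < β ∧ bucket K l (α ^ 2) = bucket K l (β ^ 2) then phi K l α else 0

/-- the integer multiplicity of bucket `g` in the range `[g₀, g₁]`. -/
def nG (K : ℕ) (g₀ g₁ g : ℤ) : ℕ := (K + 1) ^ (g - g₀).toNat * K ^ (g₁ - g).toNat

/-- the constant relating `nG` to the bucket representative -/
noncomputable def cL (K l : ℕ) (g₀ g₁ : ℤ) : ℝ :=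
  (K : ℝ) ^ (g₁ - g₀).toNat * base K ^ (-(g₀ : ℝ) + (l : ℝ) / (K : ℝ))

lemma phi_nonneg (K l : ℕ) (α : ℝ) : 0 ≤ phi K l α := Real.sqrt_nonneg _

section basics
variable {K : ℕ} (hK : 1 ≤ K)
include hK

lemma K_pos : (0 : ℝ) < K := by exact_mod_cast hK

lemma base_gt_one : 1 < base K := by
  have := K_pos hK
  unfold base
  have : 0 < 1 / (K : ℝ) := by positivity
  linarith

lemma base_pos : 0 < base K := by linarith [base_gt_one hK]

lemma log_base_le : Real.log (base K) ≤ 1 / (K : ℝ) := by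
  have h := Real.log_le_sub_one_of_pos (base_pos hK)
  unfold base at h ⊢
  linarith

lemma log_base_ge : 1 / (2 * (K : ℝ)) ≤ Real.log (base K) := by
  have hK0 := K_pos hK
  have hK1 : (1 : ℝ) ≤ K := by exact_mod_cast hK
  have h := Real.one_sub_inv_le_log_of_pos (base_pos hK)
  refine le_trans ?_ h
  unfold base
  have : (1 + 1 / (K : ℝ))⁻¹ = K / (K + 1) := by field_simp
  rw [this]
  rw [div_le_iff₀ (by positivity)]
  field_simp
  nlinarith

lemma log_base_pos : 0 < Real.log (base K) := Real.log_pos (base_gt_one hK)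

lemma step_pos : 0 < step K := div_pos (log_base_pos hK) (K_pos hK)

lemma step_mul : step K * (K : ℝ) = Real.log (base K) := by
  unfold step
  field_simp [(K_pos hK).ne']

/-- `g K ≤ f + l < (g+1) K` -/
lemma bucket_mul_le (l : ℕ) (t : ℝ) : bucket K l t * (K : ℤ) ≤ fineIdx K t + l :=
  Int.ediv_mul_le _ (by exact_mod_cast (show K ≠ 0 by omega))

lemma lt_bucket_mul (l : ℕ) (t : ℝ) : fineIdx K t + l + 1 ≤ (bucket K l t + 1) * (K : ℤ) := by
  have hK' : (0 : ℤ) < K := by exact_mod_cast hK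
  have := Int.lt_ediv_add_one_mul_self (fineIdx K t + (l : ℤ)) hK'
  unfold bucket
  omega

/-- lower bucket bound on the log scale -/
lemma log_ge_bucket (l : ℕ) (t : ℝ) :
    Real.log (base K) * ((bucket K l t : ℝ) - (l : ℝ) / K) ≤ Real.log t := by
  have hK0 := K_pos hK
  have hρ := step_pos hK
  have h1 : ((bucket K l t * (K : ℤ) : ℤ) : ℝ) ≤ ((fineIdx K t + l : ℤ) : ℝ) := by
    exact_mod_cast bucket_mul_le hK l t
  push_cast at h1
  have h2 : (fineIdx K t : ℝ) ≤ Real.log t / step K := Int.floor_le _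
  have h3 : ((bucket K l t : ℝ) * K - l) ≤ Real.log t / step K := by linarith
  rw [le_div_iff₀ hρ] at h3
  calc Real.log (base K) * ((bucket K l t : ℝ) - (l : ℝ) / K)
      = step K * ((bucket K l t : ℝ) * K - l) := by
        rw [← step_mul hK]; field_simp
    _ = ((bucket K l t : ℝ) * K - l) * step K := by ring
    _ ≤ Real.log t := h3

/-- upper bucket bound on the log scale -/
lemma log_lt_bucket (l : ℕ) (t : ℝ) :
    Real.log t < Real.log (base K) * ((bucket K l t : ℝ) + 1 - (l : ℝ) / K) := by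
  have hK0 := K_pos hK
  have hρ := step_pos hK
  have h1 : ((fineIdx K t + l + 1 : ℤ) : ℝ) ≤ (((bucket K l t + 1) * (K : ℤ) : ℤ) : ℝ) := by
    exact_mod_cast lt_bucket_mul hK l t
  push_cast at h1
  have h2 : Real.log t / step K < (fineIdx K t : ℝ) + 1 := Int.lt_floor_add_one _
  have h3 : Real.log t / step K < ((bucket K l t : ℝ) + 1) * K - l := by linarith
  rw [div_lt_iff₀ hρ] at h3
  calc Real.log t < (((bucket K l t : ℝ) + 1) * K - l) * step K := h3
    _ = step K * (((bucket K l t : ℝ) + 1) * K - l) := by ring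
    _ = Real.log (base K) * ((bucket K l t : ℝ) + 1 - (l : ℝ) / K) := by
        rw [← step_mul hK]; field_simp

lemma rep_pos (l : ℕ) (g : ℤ) : 0 < rep K l g := Real.rpow_pos_of_pos (base_pos hK) _

lemma rep_eq_exp (l : ℕ) (g : ℤ) :
    rep K l g = Real.exp (Real.log (base K) * ((g : ℝ) - (l : ℝ) / K)) := by
  unfold rep
  rw [Real.rpow_def_of_pos (base_pos hK)]

/-- `b^(g - l/K) ≤ t` -/
lemma rep_le {t : ℝ} (ht : 0 < t) (l : ℕ) : rep K l (bucket K l t) ≤ t := by
  rw [rep_eq_exp hK, ← Real.log_le_log_iff (Real.exp_pos _) ht, Real.log_exp]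
  exact log_ge_bucket hK l t

/-- `t < b · b^(g - l/K)` -/
lemma lt_base_mul_rep {t : ℝ} (ht : 0 < t) (l : ℕ) : t < base K * rep K l (bucket K l t) := by
  have hb := base_pos hK
  have hr := rep_pos hK l (bucket K l t)
  rw [← Real.log_lt_log_iff ht (by positivity), Real.log_mul hb.ne' hr.ne', rep_eq_exp hK,
    Real.log_exp]
  have := log_lt_bucket hK l t
  nlinarith [this]

lemma phi_sq (l : ℕ) (α : ℝ) : phi K l α ^ 2 = rep K l (bucket K l (α ^ 2)) :=
  Real.sq_sqrt (rep_pos hK l _).le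

/-- `φ_l(α) ≤ α` -/
lemma phi_le {α : ℝ} (hα : 0 < α) (l : ℕ) : phi K l α ≤ α := by
  have h := rep_le hK (t := α ^ 2) (by positivity) l
  unfold phi
  exact Real.sqrt_le_iff.mpr ⟨hα.le, h⟩

/-- `α² < b φ_l(α)²` -/
lemma sq_lt_base_mul_phi_sq {α : ℝ} (hα : 0 < α) (l : ℕ) : α ^ 2 < base K * phi K l α ^ 2 := by
  rw [phi_sq hK]
  exact lt_base_mul_rep hK (by positivity) l

/-- `α - φ_l(α) ≤ α (log b)/2` -/
lemma sub_phi_le {α : ℝ} (hα : 0 < α) (l : ℕ) :
    α - phi K l α ≤ α * (Real.log (base K) / 2) := by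
  have hb := base_pos hK
  set e := Real.exp (-(Real.log (base K) / 2)) with he
  have he0 : 0 < e := Real.exp_pos _
  have he2 : e ^ 2 = (base K)⁻¹ := by
    rw [he, ← Real.exp_nat_mul]
    have : ((2 : ℕ) : ℝ) * (-(Real.log (base K) / 2)) = -Real.log (base K) := by push_cast; ring
    rw [this, Real.exp_neg, Real.exp_log hb]
  have h1 := sq_lt_base_mul_phi_sq hK hα l
  have h2 : (α * e) ^ 2 < phi K l α ^ 2 := by
    rw [mul_pow, he2]
    rw [← div_eq_mul_inv, div_lt_iff₀ hb]
    linarith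
  have h3 : α * e < phi K l α := lt_of_pow_lt_pow_left₀ 2 (Real.sqrt_nonneg _) h2
  have h4 : 1 - Real.log (base K) / 2 ≤ e := by
    have := Real.add_one_le_exp (-(Real.log (base K) / 2))
    rw [he]; linarith
  nlinarith

end basics

/-! ### Counting the offsets which separate two points -/

/-- moving the numerator by one changes the floor only when the divisor divides the new numerator -/
lemma ediv_succ_eq_of_not_dvd {K : ℤ} (hK : 0 < K) (a : ℤ) (h : ¬ K ∣ a + 1) :
    (a + 1) / K = a / K := by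
  have h1 := Int.emod_add_mul_ediv a K
  have h2 := Int.emod_nonneg a hK.ne'
  have h3 := Int.emod_lt_of_pos a hK
  have h4 : a % K + 1 ≠ K := by
    intro h5
    apply h
    refine ⟨a / K + 1, ?_⟩
    have : a + 1 = (a % K + 1) + K * (a / K) := by linarith
    rw [this, h5]; ring
  have h5 : a % K + 1 < K := by omega
  have := (Int.ediv_emod_unique (a := a + 1) (b := K) (q := a / K) (r := a % K + 1) hK).2
    ⟨by linarith, by omega, h5⟩
  exact this.1

/-- at most one offset `l < K` has `K ∣ u + l + 1` -/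
lemma card_dvd_le_one {K : ℕ} (u : ℤ) :
    ((Finset.range K).filter (fun l : ℕ => (K : ℤ) ∣ u + l + 1)).card ≤ 1 := by
  rw [Finset.card_le_one]
  intro a ha b hb
  simp only [Finset.mem_filter, Finset.mem_range] at ha hb
  obtain ⟨ha1, ha2⟩ := ha
  obtain ⟨hb1, hb2⟩ := hb
  have h : (K : ℤ) ∣ (a : ℤ) - b := by
    have := dvd_sub ha2 hb2
    have e : u + a + 1 - (u + b + 1) = (a : ℤ) - b := by ring
    rwa [e] at this
  have h2 : |(a : ℤ) - b| < K := by
    rw [abs_lt]; constructor <;> omega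
  have h3 := Int.eq_zero_of_abs_lt_dvd h h2
  omega

/-- number of offsets separating `s` and `s + d` -/
lemma card_ediv_ne_le {K : ℕ} (hK : 1 ≤ K) (s : ℤ) (d : ℕ) :
    ((Finset.range K).filter
      (fun l : ℕ => (s + (l : ℤ)) / (K : ℤ) ≠ (s + d + (l : ℤ)) / (K : ℤ))).card ≤ d := by
  have hK' : (0 : ℤ) < K := by exact_mod_cast hK
  induction d with
  | zero => simp
  | succ d ih =>
    have hsub : (Finset.range K).filter
        (fun l : ℕ => (s + (l : ℤ)) / (K : ℤ) ≠ (s + ((d + 1 : ℕ) : ℤ) + (l : ℤ)) / (K : ℤ)) ⊆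
        (Finset.range K).filter
          (fun l : ℕ => (s + (l : ℤ)) / (K : ℤ) ≠ (s + d + (l : ℤ)) / (K : ℤ)) ∪
        (Finset.range K).filter (fun l : ℕ => (K : ℤ) ∣ (s + d) + l + 1) := by
      intro l hl
      simp only [Finset.mem_filter, Finset.mem_range, Finset.mem_union] at hl ⊢
      obtain ⟨hl1, hl2⟩ := hl
      by_cases h : (s + (l : ℤ)) / (K : ℤ) = (s + d + (l : ℤ)) / (K : ℤ)
      · right
        refine ⟨hl1, ?_⟩
        by_contra hnd
        apply hl2
        rw [h]
        have := ediv_succ_eq_of_not_dvd hK' (s + d + l) hnd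
        have e : s + ((d + 1 : ℕ) : ℤ) + (l : ℤ) = s + d + l + 1 := by push_cast; ring
        rw [e, this]
      · left
        exact ⟨hl1, h⟩
    calc _ ≤ _ := Finset.card_le_card hsub
      _ ≤ _ := Finset.card_union_le _ _
      _ ≤ d + 1 := add_le_add ih (card_dvd_le_one _)

/-- number of offsets separating two integers -/
lemma card_ediv_ne_le_abs {K : ℕ} (hK : 1 ≤ K) (s s' : ℤ) :
    (((Finset.range K).filter
      (fun l : ℕ => (s + (l : ℤ)) / (K : ℤ) ≠ (s' + (l : ℤ)) / (K : ℤ))).card : ℝ)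
      ≤ |(s : ℝ) - s'| := by
  rcases le_total s s' with h | h
  · obtain ⟨d, rfl⟩ : ∃ d : ℕ, s' = s + d := ⟨(s' - s).toNat, by omega⟩
    have := card_ediv_ne_le hK s d
    have h2 : |(s : ℝ) - ((s + (d : ℤ) : ℤ) : ℝ)| = d := by
      push_cast
      rw [abs_sub_comm]
      have : (s : ℝ) + d - s = d := by ring
      rw [this, abs_of_nonneg (Nat.cast_nonneg d)]
    rw [h2]
    exact_mod_cast this
  · obtain ⟨d, rfl⟩ : ∃ d : ℕ, s = s' + d := ⟨(s - s').toNat, by omega⟩
    have := card_ediv_ne_le hK s' d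
    have h2 : |((s' + (d : ℤ) : ℤ) : ℝ) - (s' : ℝ)| = d := by
      push_cast
      have : (s' : ℝ) + d - s' = d := by ring
      rw [this, abs_of_nonneg (Nat.cast_nonneg d)]
    rw [h2]
    have e : (Finset.range K).filter
        (fun l : ℕ => (s' + (d : ℤ) + (l : ℤ)) / (K : ℤ) ≠ (s' + (l : ℤ)) / (K : ℤ)) =
        (Finset.range K).filter
        (fun l : ℕ => (s' + (l : ℤ)) / (K : ℤ) ≠ (s' + d + (l : ℤ)) / (K : ℤ)) := by
      apply Finset.filter_congr
      intro l _
      exact ne_comm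
    rw [e]
    exact_mod_cast this

/-- `|f(t) - f(τ)| ≤ |log t - log τ| / ρ + 1` -/
lemma abs_fine_sub_le {K : ℕ} (t τ : ℝ) :
    |(fineIdx K t : ℝ) - fineIdx K τ| ≤ |Real.log t - Real.log τ| / |step K| + 1 := by
  have h1 : (fineIdx K t : ℝ) ≤ Real.log t / step K := Int.floor_le _
  have h2 : Real.log t / step K < (fineIdx K t : ℝ) + 1 := Int.lt_floor_add_one _
  have h3 : (fineIdx K τ : ℝ) ≤ Real.log τ / step K := Int.floor_le _
  have h4 : Real.log τ / step K < (fineIdx K τ : ℝ) + 1 := Int.lt_floor_add_one _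
  have h5 : |Real.log t / step K - Real.log τ / step K| =
      |Real.log t - Real.log τ| / |step K| := by
    rw [← sub_div, abs_div]
  rw [← h5, abs_le]
  constructor
  · have := neg_abs_le (Real.log t / step K - Real.log τ / step K)
    linarith
  · have := le_abs_self (Real.log t / step K - Real.log τ / step K)
    linarith

/-- the number of offsets separating `t` and `τ`, over `K`, is at most
`|log t - log τ|/log b + 1/K`. -/
lemma card_bucket_ne_div_le {K : ℕ} (hK : 1 ≤ K) (t τ : ℝ) :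
    (((Finset.range K).filter (fun l : ℕ => bucket K l t ≠ bucket K l τ)).card : ℝ) / K
      ≤ |Real.log t - Real.log τ| / Real.log (base K) + 1 / (K : ℝ) := by
  have hK0 := K_pos hK
  have hρ := step_pos hK
  have h1 := card_ediv_ne_le_abs hK (fineIdx K t) (fineIdx K τ)
  have h2 := abs_fine_sub_le (K := K) t τ
  rw [abs_of_pos hρ] at h2
  have h3 : (((Finset.range K).filter (fun l : ℕ => bucket K l t ≠ bucket K l τ)).card : ℝ) ≤
      |Real.log t - Real.log τ| / step K + 1 := le_trans h1 h2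
  rw [div_le_iff₀ hK0]
  refine le_trans h3 (le_of_eq ?_)
  have h5 : step K = Real.log (base K) / K := rfl
  have h6 := (log_base_pos hK).ne'
  rw [h5]
  field_simp

/-! ### The averaged kernel -/

lemma kbar_eq_zero_of_nonpos_left (K : ℕ) {α : ℝ} (hα : α ≤ 0) (β : ℝ) : kbar K α β = 0 := by
  unfold kbar
  rw [Finset.sum_eq_zero, mul_zero]
  intro l _
  rw [if_neg]
  intro h
  linarith [h.1]

lemma kbar_eq_zero_of_nonpos_right (K : ℕ) (α : ℝ) {β : ℝ} (hβ : β ≤ 0) : kbar K α β = 0 := by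
  unfold kbar
  rw [Finset.sum_eq_zero, mul_zero]
  intro l _
  rw [if_neg]
  intro h
  linarith [h.2.1]

lemma kbar_nonneg (K : ℕ) (α β : ℝ) : 0 ≤ kbar K α β := by
  unfold kbar
  apply mul_nonneg (by positivity)
  apply Finset.sum_nonneg
  intro l _
  split_ifs
  · exact phi_nonneg K l α
  · exact le_rfl

/-- `α - kbar = avg_l (α - φ_l(α)) 1[same] + α · #diff / K` for positive `α,β`. -/
lemma sub_kbar_eq {K : ℕ} (hK : 1 ≤ K) {α β : ℝ} (hα : 0 < α) (hβ : 0 < β) :
    α - kbar K α β = (K : ℝ)⁻¹ * ∑ l ∈ Finset.range K,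
      (if bucket K l (α ^ 2) = bucket K l (β ^ 2) then α - phi K l α else α) := by
  have hK0 := K_pos hK
  have h1 : (K : ℝ)⁻¹ * ∑ _l ∈ Finset.range K, α = α := by
    rw [Finset.sum_const, Finset.card_range, nsmul_eq_mul]
    field_simp
  have h2 : ∀ l, (if 0 < α ∧ 0 < β ∧ bucket K l (α ^ 2) = bucket K l (β ^ 2) then phi K l α else 0)
      = α - (if bucket K l (α ^ 2) = bucket K l (β ^ 2) then α - phi K l α else α) := by
    intro l
    by_cases h : bucket K l (α ^ 2) = bucket K l (β ^ 2)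
    · simp [hα, hβ, h]
    · simp [h]
  unfold kbar
  simp_rw [h2]
  rw [Finset.sum_sub_distrib, mul_sub, h1]
  ring

/-- upper estimate of `α - kbar`: the main inequality before the case distinction. -/
lemma sub_kbar_le {K : ℕ} (hK : 1 ≤ K) {α β : ℝ} (hα : 0 < α) (hβ : 0 < β) :
    α - kbar K α β ≤ α * (Real.log (base K) / 2)
      + α * (((Finset.range K).filter
          (fun l : ℕ => bucket K l (α ^ 2) ≠ bucket K l (β ^ 2))).card / K) := by
  have hK0 := K_pos hK
  rw [sub_kbar_eq hK hα hβ]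
  have hlb := log_base_pos hK
  have hterm : ∀ l ∈ Finset.range K,
      (if bucket K l (α ^ 2) = bucket K l (β ^ 2) then α - phi K l α else α)
        ≤ α * (Real.log (base K) / 2)
          + (if bucket K l (α ^ 2) ≠ bucket K l (β ^ 2) then α else 0) := by
    intro l _
    by_cases h : bucket K l (α ^ 2) = bucket K l (β ^ 2)
    · simp only [h, if_true, ne_eq, not_true_eq_false, if_false, add_zero]
      exact sub_phi_le hK hα l
    · simp only [h, if_false, ne_eq, not_false_eq_true, if_true]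
      have : 0 ≤ α * (Real.log (base K) / 2) := by positivity
      linarith
  have hsum := Finset.sum_le_sum hterm
  rw [Finset.sum_add_distrib, Finset.sum_const, Finset.card_range, nsmul_eq_mul,
    ← Finset.sum_filter, Finset.sum_const, nsmul_eq_mul] at hsum
  have h2 := mul_le_mul_of_nonneg_left hsum (by positivity : (0 : ℝ) ≤ (K : ℝ)⁻¹)
  refine le_trans h2 (le_of_eq ?_)
  field_simp

lemma sub_kbar_nonneg {K : ℕ} (hK : 1 ≤ K) {α : ℝ} (hα : 0 < α) (β : ℝ) : 0 ≤ α - kbar K α β := by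
  rcases le_or_gt β 0 with hβ | hβ
  · rw [kbar_eq_zero_of_nonpos_right K α hβ]; linarith
  · rw [sub_kbar_eq hK hα hβ]
    apply mul_nonneg (inv_nonneg.mpr (K_pos hK).le)
    apply Finset.sum_nonneg
    intro l _
    split_ifs
    · linarith [phi_le hK hα l]
    · exact hα.le

/-- `0 ≤ kbar ≤ α` -/
lemma kbar_le {K : ℕ} (hK : 1 ≤ K) {α : ℝ} (hα : 0 ≤ α) (β : ℝ) : kbar K α β ≤ α := by
  rcases hα.lt_or_eq with h | h
  · linarith [sub_kbar_nonneg hK h β]
  · rw [kbar_eq_zero_of_nonpos_left K h.symm.le]; exact hα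

/-- **Kernel estimate** (Q5): `|kbar(α,β) - α| ≤ (3/(2K)) α + 8 K |α - β|`. -/
theorem abs_kbar_sub_le {K : ℕ} (hK : 1 ≤ K) {α β : ℝ} (hα : 0 ≤ α) (hβ : 0 ≤ β) :
    |kbar K α β - α| ≤ 3 / (2 * (K : ℝ)) * α + 8 * K * |α - β| := by
  have hK0 := K_pos hK
  have hK1 : (1 : ℝ) ≤ K := by exact_mod_cast hK
  rcases hα.eq_or_lt with h0 | hαp
  · subst h0
    rw [kbar_eq_zero_of_nonpos_left K le_rfl]
    simp only [sub_self, abs_zero, mul_zero, zero_add]
    positivity
  rcases hβ.eq_or_lt with h0 | hβp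
  · subst h0
    rw [kbar_eq_zero_of_nonpos_right K α le_rfl, zero_sub, abs_neg, sub_zero,
      abs_of_pos hαp]
    have h1 : 0 ≤ 3 / (2 * (K : ℝ)) * α := by positivity
    nlinarith
  have hnn := sub_kbar_nonneg hK hαp β
  rw [abs_sub_comm, abs_of_nonneg hnn]
  have hmain := sub_kbar_le hK hαp hβp
  set D : ℝ := (((Finset.range K).filter
      (fun l : ℕ => bucket K l (α ^ 2) ≠ bucket K l (β ^ 2))).card : ℝ) with hD
  have hlog1 := log_base_le hK
  have hlog2 := log_base_ge hK
  have hlogpos := log_base_pos hK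
  have h1 : α * (Real.log (base K) / 2) ≤ α * (1 / (2 * (K : ℝ))) := by
    apply mul_le_mul_of_nonneg_left _ hαp.le
    have : 1 / (2 * (K : ℝ)) = (1 / (K : ℝ)) / 2 := by field_simp
    rw [this]; linarith
  rcases lt_or_ge β (α / 2) with hcase | hcase
  · -- far apart
    have hDK : D / K ≤ 1 := by
      rw [div_le_one hK0, hD]
      have : ((Finset.range K).filter
          (fun l : ℕ => bucket K l (α ^ 2) ≠ bucket K l (β ^ 2))).card ≤ K := by
        simpa using Finset.card_filter_le (Finset.range K)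
          (fun l : ℕ => bucket K l (α ^ 2) ≠ bucket K l (β ^ 2))
      exact_mod_cast this
    have h2 : α * (D / K) ≤ α := by nlinarith
    have h3 : α ≤ 2 * |α - β| := by
      have := le_abs_self (α - β)
      linarith
    have h4 : 2 * |α - β| ≤ 8 * K * |α - β| := by
      have := abs_nonneg (α - β)
      nlinarith
    have h5 : α * (1 / (2 * (K : ℝ))) ≤ 3 / (2 * (K : ℝ)) * α := by
      have : 0 ≤ α / (K : ℝ) := by positivity
      have e1 : α * (1 / (2 * (K : ℝ))) = (α / K) / 2 := by field_simp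
      have e2 : 3 / (2 * (K : ℝ)) * α = 3 * (α / K) / 2 := by field_simp
      rw [e1, e2]; linarith
    linarith
  · -- comparable
    have hcard := card_bucket_ne_div_le hK (α ^ 2) (β ^ 2)
    have hlogs : Real.log (α ^ 2) - Real.log (β ^ 2) = 2 * (Real.log α - Real.log β) := by
      rw [Real.log_pow, Real.log_pow]; push_cast; ring
    rw [hlogs, abs_mul, abs_of_pos (by norm_num : (0 : ℝ) < 2)] at hcard
    have hloga : |Real.log α - Real.log β| ≤ 2 * |α - β| / α := by
      rw [← Real.log_div hαp.ne' hβp.ne', ]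
      rw [abs_le]
      constructor
      · -- log(α/β) ≥ 1 - β/α
        have := Real.one_sub_inv_le_log_of_pos (div_pos hαp hβp)
        have e : (α / β)⁻¹ = β / α := by field_simp
        rw [e] at this
        have h6 : -(2 * |α - β| / α) ≤ 1 - β / α := by
          have e2 : 1 - β / α = (α - β) / α := by field_simp
          rw [e2, ← neg_div, div_le_div_iff_of_pos_right hαp]
          have := neg_abs_le (α - β)
          have := abs_nonneg (α - β)
          linarith
        linarith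
      · -- log(α/β) ≤ α/β - 1 ≤ 2 |α-β| / α
        have := Real.log_le_sub_one_of_pos (div_pos hαp hβp)
        have h7 : α / β - 1 ≤ 2 * |α - β| / α := by
          have e2 : α / β - 1 = (α - β) / β := by field_simp
          rw [e2, div_le_div_iff₀ hβp hαp]
          have h8 := le_abs_self (α - β)
          have h9 := abs_nonneg (α - β)
          nlinarith
        linarith
    have h10 : 2 * |Real.log α - Real.log β| / Real.log (base K) ≤ 2 * (2 * |α - β| / α) * (2 * K) := by
      rw [div_le_iff₀ hlogpos]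
      have h11 : 2 * (2 * |α - β| / α) * (2 * K) * (1 / (2 * (K : ℝ))) = 2 * (2 * |α - β| / α) := by
        field_simp
      have h12 : 0 ≤ 2 * (2 * |α - β| / α) * (2 * K) := by positivity
      calc 2 * |Real.log α - Real.log β| ≤ 2 * (2 * |α - β| / α) := by linarith
        _ = 2 * (2 * |α - β| / α) * (2 * K) * (1 / (2 * (K : ℝ))) := h11.symm
        _ ≤ 2 * (2 * |α - β| / α) * (2 * K) * Real.log (base K) :=
            mul_le_mul_of_nonneg_left hlog2 h12
    have h13 : α * (D / K) ≤ α * (2 * (2 * |α - β| / α) * (2 * K)) + α * (1 / (K : ℝ)) := by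
      rw [← mul_add]
      apply mul_le_mul_of_nonneg_left _ hαp.le
      linarith
    have h14 : α * (2 * (2 * |α - β| / α) * (2 * K)) = 8 * K * |α - β| := by
      field_simp
      ring
    have h15 : α * (1 / (2 * (K : ℝ))) + α * (1 / (K : ℝ)) = 3 / (2 * (K : ℝ)) * α := by
      field_simp
      ring
    linarith

/-! ### The multiplicities -/

/-- `n_g = c_l · b^(g - l/K)` for `g₀ ≤ g ≤ g₁`. -/
theorem nG_eq {K : ℕ} (hK : 1 ≤ K) (l : ℕ) {g₀ g₁ g : ℤ} (h0 : g₀ ≤ g) (h1 : g ≤ g₁) :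
    (nG K g₀ g₁ g : ℝ) = cL K l g₀ g₁ * rep K l g := by
  have hK0 := K_pos hK
  have hb := base_pos hK
  unfold nG cL rep
  obtain ⟨u, hu⟩ : ∃ u : ℕ, g - g₀ = u := ⟨(g - g₀).toNat, by omega⟩
  obtain ⟨w, hw⟩ : ∃ w : ℕ, g₁ - g = w := ⟨(g₁ - g).toNat, by omega⟩
  have hsum : g₁ - g₀ = ((u + w : ℕ) : ℤ) := by push_cast; omega
  rw [hu, hw, hsum]
  simp only [Int.toNat_natCast]
  push_cast
  have e1 : (base K) ^ (-(g₀ : ℝ) + (l : ℝ) / K) * (base K) ^ ((g : ℝ) - (l : ℝ) / K)
      = (base K) ^ (u : ℕ) := by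
    rw [← Real.rpow_add hb, ← Real.rpow_natCast]
    congr 1
    have : (g : ℝ) - g₀ = u := by exact_mod_cast hu
    linarith
  have e2 : base K = ((K : ℝ) + 1) / K := by
    unfold base; field_simp
  rw [mul_assoc, e1, e2, div_pow, pow_add]
  field_simp

lemma nG_pos {K : ℕ} (hK : 1 ≤ K) (g₀ g₁ g : ℤ) : 0 < nG K g₀ g₁ g := by
  unfold nG
  have : 0 < K := by omega
  positivity

lemma cL_pos {K : ℕ} (hK : 1 ≤ K) (l : ℕ) (g₀ g₁ : ℤ) : 0 < cL K l g₀ g₁ := by
  have hK0 := K_pos hK
  have hb := base_pos hK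
  unfold cL
  positivity

end Crest.Agent.PR.Buckets
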