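import Mathlib

/-!
# The stack catalyst: combinatorics only (section (Q3) of the S0536 blueprint).

For a finite bucket set `𝔾`, `n g ≥ 1`, `M ≥ 2`: a finite label set `Lab`, amplitudes `a`, and `push`
with the properties needed for the catalytic measurement.
-/

namespace Crest.Agent.PR.QStackInst

variable {𝔾 : Type} [Fintype 𝔾] [DecidableEq 𝔾]

/-- one stack: a length `m ≤ M` and a word of that length -/
abbrev St (n : 𝔾 → ℕ) (M : ℕ) (g : 𝔾) : Type := Σ m : Fin (M + 1), (Fin m.val → Fin (n g))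

/-- amplitude of a stack -/
noncomputable def amp1 (n : 𝔾 → ℕ) (M : ℕ) (g : 𝔾) (s : St n M g) : ℝ :=
  if s.1.val < M then 1 / Real.sqrt ((M : ℝ) * (n g : ℝ) ^ s.1.val) else 0

/-- the labels -/
abbrev Lab (n : 𝔾 → ℕ) (M : ℕ) : Type := ∀ g, St n M g

/-- amplitude of a label -/
noncomputable def amp (n : 𝔾 → ℕ) (M : ℕ) (l : Lab n M) : ℝ := ∏ g, amp1 n M g (l g)

lemma amp1_nonneg (n : 𝔾 → ℕ) (M : ℕ) (g : 𝔾) (s : St n M g) : 0 ≤ amp1 n M g s := by
  unfold amp1; split_ifs <;> positivity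

lemma amp_nonneg (n : 𝔾 → ℕ) (M : ℕ) (l : Lab n M) : 0 ≤ amp n M l :=
  Finset.prod_nonneg fun g _ => amp1_nonneg n M g _

/-- Sum over stacks of fixed length. -/
lemma sum_St {n : 𝔾 → ℕ} {M : ℕ} {g : 𝔾} (f : St n M g → ℝ) :
    ∑ s, f s = ∑ m : Fin (M + 1), ∑ w : Fin m.val → Fin (n g), f ⟨m, w⟩ :=
  Fintype.sum_sigma _

/-- mass of the stacks of length `m < M` -/
lemma amp1_mass (n : 𝔾 → ℕ) (hn : ∀ g, 0 < n g) (M : ℕ) (g : 𝔾) (m : Fin (M + 1)) (hm : m.val < M) :
    ∑ w : Fin m.val → Fin (n g), amp1 n M g ⟨m, w⟩ ^ 2 = 1 / (M : ℝ) := by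
  have hM : (0 : ℝ) < M := by exact_mod_cast (by omega : 0 < M)
  have hg : (0 : ℝ) < n g := by exact_mod_cast hn g
  have hterm : ∀ w : Fin m.val → Fin (n g),
      amp1 n M g ⟨m, w⟩ ^ 2 = 1 / ((M : ℝ) * (n g : ℝ) ^ m.val) := by
    intro w
    have hpos : 0 < (M : ℝ) * (n g : ℝ) ^ m.val := by positivity
    simp only [amp1, if_pos hm]
    rw [div_pow, one_pow, Real.sq_sqrt hpos.le]
  simp only [hterm, Finset.sum_const, Finset.card_univ, Fintype.card_pi, Fintype.card_fin,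
    Finset.prod_const, nsmul_eq_mul]
  push_cast
  have hp : (n g : ℝ) ^ m.val ≠ 0 := by positivity
  field_simp

/-- the total mass of one stack is one -/
lemma amp1_total (n : 𝔾 → ℕ) (hn : ∀ g, 0 < n g) (M : ℕ) (hM : 1 ≤ M) (g : 𝔾) :
    ∑ s, amp1 n M g s ^ 2 = 1 := by
  rw [sum_St, Fin.sum_univ_castSucc]
  have h0 : ∑ w : Fin (Fin.last M).val → Fin (n g), amp1 n M g ⟨Fin.last M, w⟩ ^ 2 = 0 := by
    apply Finset.sum_eq_zero
    intro w _
    simp [amp1]
  rw [h0, add_zero]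
  have h1 : ∀ i : Fin M, ∑ w : Fin (i.castSucc).val → Fin (n g), amp1 n M g ⟨i.castSucc, w⟩ ^ 2
      = 1 / (M : ℝ) := fun i => amp1_mass n hn M g i.castSucc (by simp)
  simp only [h1, Finset.sum_const, Finset.card_univ, Fintype.card_fin, nsmul_eq_mul]
  have hM' : (M : ℝ) ≠ 0 := by exact_mod_cast (by omega : M ≠ 0)
  field_simp

/-- total mass -/
lemma amp_total (n : 𝔾 → ℕ) (hn : ∀ g, 0 < n g) (M : ℕ) (hM : 1 ≤ M) :
    ∑ l : Lab n M, amp n M l ^ 2 = 1 := by
  have h : ∀ l : Lab n M, amp n M l ^ 2 = ∏ g, amp1 n M g (l g) ^ 2 := by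
    intro l; unfold amp; rw [Finset.prod_pow]
  simp only [h]
  have := (Finset.prod_univ_sum (fun g => (Finset.univ : Finset (St n M g)))
    (fun g s => amp1 n M g s ^ 2))
  rw [Fintype.piFinset_univ] at this
  rw [← this]
  simp [amp1_total n hn M hM]

/-- interior stacks: `1 ≤ length < M` -/
def intSt (n : 𝔾 → ℕ) (M : ℕ) (g : 𝔾) : Finset (St n M g) :=
  Finset.univ.filter fun s => 1 ≤ s.1.val ∧ s.1.val < M

/-- interior labels -/
def interior (n : 𝔾 → ℕ) (M : ℕ) : Finset (Lab n M) :=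
  Fintype.piFinset fun g => intSt n M g

lemma mem_interior {n : 𝔾 → ℕ} {M : ℕ} {l : Lab n M} :
    l ∈ interior n M ↔ ∀ g, 1 ≤ (l g).1.val ∧ (l g).1.val < M := by
  simp [interior, intSt, Fintype.mem_piFinset]

/-- interior mass of one stack -/
lemma amp1_int_mass (n : 𝔾 → ℕ) (hn : ∀ g, 0 < n g) (M : ℕ) (hM : 1 ≤ M) (g : 𝔾) :
    ∑ s ∈ intSt n M g, amp1 n M g s ^ 2 = 1 - 1 / (M : ℝ) := by
  have h0 := amp1_total n hn M hM g
  have hsplit : ∑ s, amp1 n M g s ^ 2 = ∑ s ∈ intSt n M g, amp1 n M g s ^ 2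
      + ∑ s ∈ (Finset.univ.filter fun s : St n M g => ¬ (1 ≤ s.1.val ∧ s.1.val < M)),
        amp1 n M g s ^ 2 := by
    unfold intSt
    rw [Finset.sum_filter_add_sum_filter_not]
  have hrest : ∑ s ∈ (Finset.univ.filter fun s : St n M g => ¬ (1 ≤ s.1.val ∧ s.1.val < M)),
        amp1 n M g s ^ 2 = 1 / (M : ℝ) := by
    -- the rest consists of the empty stack (mass `1/M`) and of full stacks (amplitude 0)
    have h1 : ∑ s ∈ (Finset.univ.filter fun s : St n M g => ¬ (1 ≤ s.1.val ∧ s.1.val < M)),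
        amp1 n M g s ^ 2 = ∑ s ∈ (Finset.univ.filter fun s : St n M g => s.1.val = 0),
        amp1 n M g s ^ 2 := by
      symm
      apply Finset.sum_subset_zero_on_sdiff
      · intro s hs
        simp only [Finset.mem_filter, Finset.mem_univ, true_and] at hs ⊢
        omega
      · intro s hs
        simp only [Finset.mem_sdiff, Finset.mem_filter, Finset.mem_univ, true_and] at hs
        have : ¬ s.1.val < M := by omega
        simp [amp1, this]
      · intro _ _; rfl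
    rw [h1]
    have h2 : ∑ s ∈ (Finset.univ.filter fun s : St n M g => s.1.val = 0), amp1 n M g s ^ 2
        = ∑ w : Fin (0 : Fin (M + 1)).val → Fin (n g), amp1 n M g ⟨0, w⟩ ^ 2 := by
      rw [Finset.sum_filter, sum_St, Finset.sum_eq_single (0 : Fin (M + 1))]
      · apply Finset.sum_congr rfl
        intro w _
        simp
      · intro b _ hb
        apply Finset.sum_eq_zero
        intro w _
        have : b.val ≠ 0 := fun h => hb (Fin.ext h)
        simp [this]
      · simp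
    rw [h2]
    exact amp1_mass n hn M g 0 (by simp; omega)
  rw [hsplit, hrest] at h0
  linarith

/-- interior mass -/
lemma amp_int_mass (n : 𝔾 → ℕ) (hn : ∀ g, 0 < n g) (M : ℕ) (hM : 1 ≤ M) :
    ∑ l ∈ interior n M, amp n M l ^ 2 = (1 - 1 / (M : ℝ)) ^ Fintype.card 𝔾 := by
  have h : ∀ l : Lab n M, amp n M l ^ 2 = ∏ g, amp1 n M g (l g) ^ 2 := by
    intro l; unfold amp; rw [Finset.prod_pow]
  simp only [h, interior]
  rw [← Finset.prod_univ_sum (fun g => intSt n M g) (fun g s => amp1 n M g s ^ 2)]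
  simp [amp1_int_mass n hn M hM, Finset.card_univ]

/-- push on one stack (domain: `m < M`) -/
def push1 (n : 𝔾 → ℕ) (M : ℕ) (g : 𝔾) (s : St n M g) (hs : s.1.val < M) (r : Fin (n g)) : St n M g :=
  ⟨⟨s.1.val + 1, by omega⟩, Fin.cons r s.2⟩

/-- domain of `push g`: flag below `n g`, stack `g` not full -/
def Dom (n : 𝔾 → ℕ) (M : ℕ) (g : 𝔾) (l : Lab n M) (r : ℕ) : Prop := r < n g ∧ (l g).1.val < M

instance (n : 𝔾 → ℕ) (M : ℕ) (g : 𝔾) (l : Lab n M) (r : ℕ) : Decidable (Dom n M g l r) := by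
  unfold Dom; infer_instance

/-- push on a label: total function, identity outside its domain -/
def push (n : 𝔾 → ℕ) (M : ℕ) (g : 𝔾) (l : Lab n M) (r : ℕ) : Lab n M :=
  if h : Dom n M g l r then Function.update l g (push1 n M g (l g) h.2 ⟨r, h.1⟩) else l

lemma push_apply_self {n : 𝔾 → ℕ} {M : ℕ} {g : 𝔾} {l : Lab n M} {r : ℕ} (h : Dom n M g l r) :
    push n M g l r g = push1 n M g (l g) h.2 ⟨r, h.1⟩ := by
  simp [push, h]

lemma push_apply_ne {n : 𝔾 → ℕ} {M : ℕ} {g g' : 𝔾} {l : Lab n M} {r : ℕ} (h : Dom n M g l r)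
    (hg : g' ≠ g) : push n M g l r g' = l g' := by
  simp [push, h, Function.update_of_ne hg]

lemma push1_inj {n : 𝔾 → ℕ} {M : ℕ} {g : 𝔾} {s s' : St n M g} (hs : s.1.val < M) (hs' : s'.1.val < M)
    {r r' : Fin (n g)} (he : push1 n M g s hs r = push1 n M g s' hs' r') : s = s' ∧ r = r' := by
  obtain ⟨m, w⟩ := s
  obtain ⟨m', w'⟩ := s'
  have hm : m.val = m'.val := by
    have := congrArg (fun s => s.1.val) he
    simpa [push1] using this
  obtain rfl : m = m' := Fin.ext hm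
  have hw := eq_of_heq (Sigma.mk.inj he).2
  obtain ⟨hr, ht⟩ := Fin.cons_injective2 hw
  subst ht
  exact ⟨rfl, hr⟩

/-- `push g` is injective on its domain. -/
lemma push_inj {n : 𝔾 → ℕ} {M : ℕ} {g : 𝔾} {l l' : Lab n M} {r r' : ℕ} (h : Dom n M g l r)
    (h' : Dom n M g l' r') (he : push n M g l r = push n M g l' r') : l = l' ∧ r = r' := by
  have hg := congrFun he g
  rw [push_apply_self h, push_apply_self h'] at hg
  obtain ⟨h1, h2⟩ := push1_inj h.2 h'.2 hg
  refine ⟨?_, congrArg Fin.val h2⟩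
  funext g'
  by_cases hgg : g' = g
  · subst hgg; exact h1
  · have := congrFun he g'
    rwa [push_apply_ne h hgg, push_apply_ne h' hgg] at this

/-- pushes at different buckets are different (the length of stack `g` differs). -/
lemma push_ne {n : 𝔾 → ℕ} {M : ℕ} {g g' : 𝔾} {l : Lab n M} {r : ℕ} (hg : g ≠ g')
    (h : Dom n M g l r) (h' : Dom n M g' l r) : push n M g l r ≠ push n M g' l r := by
  intro he
  have h1 := congrFun he g
  rw [push_apply_self h, push_apply_ne h' hg] at h1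
  have h2 := congrArg (fun s => s.1.val) h1
  simp [push1] at h2

/-- pop: each interior label is the push of a unique label, with amplitude `√(n g)` times larger. -/
lemma exists_pop (n : 𝔾 → ℕ) (hn : ∀ g, 0 < n g) (M : ℕ) (g : 𝔾) {l' : Lab n M}
    (hl' : l' ∈ interior n M) :
    ∃ (l : Lab n M) (r : ℕ), Dom n M g l r ∧ push n M g l r = l' ∧
      amp n M l = Real.sqrt (n g) * amp n M l' := by
  have hint := mem_interior.1 hl'
  rcases hl : l' g with ⟨m', w'⟩
  have hg := hint g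
  rw [hl] at hg
  obtain ⟨h1, h2⟩ := hg
  simp only at h1 h2
  obtain ⟨k, hk⟩ : ∃ k, m'.val = k + 1 := ⟨m'.val - 1, by omega⟩
  obtain ⟨mv, hmv⟩ := m'
  simp only at hk h1 h2
  subst hk
  let s : St n M g := ⟨⟨k, by omega⟩, fun i => w' i.succ⟩
  let r : Fin (n g) := w' 0
  have hdom : Dom n M (g := g) (Function.update l' g s) r.val := by
    refine ⟨r.isLt, ?_⟩
    simp only [Function.update_self]
    show k < M
    omega
  refine ⟨Function.update l' g s, r.val, hdom, ?_, ?_⟩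
  · funext g'
    by_cases hgg : g' = g
    · subst hgg
      rw [push_apply_self hdom, hl]
      simp only [Function.update_self]
      unfold push1
      simp only [s, r]
      congr 1
      exact Fin.cons_self_tail w'
    · rw [push_apply_ne hdom hgg]
      simp [Function.update_of_ne hgg]
  · -- amplitudes
    unfold amp
    have hM : (0 : ℝ) < M := by exact_mod_cast (by omega : 0 < M)
    have hng : (0 : ℝ) < n g := by exact_mod_cast hn g
    rw [← Finset.mul_prod_erase Finset.univ _ (Finset.mem_univ g),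
      ← Finset.mul_prod_erase Finset.univ (fun g => amp1 n M g (l' g)) (Finset.mem_univ g)]
    have hrest : ∏ x ∈ Finset.univ.erase g, amp1 n M x (Function.update l' g s x)
        = ∏ x ∈ Finset.univ.erase g, amp1 n M x (l' x) := by
      apply Finset.prod_congr rfl
      intro x hx
      rw [Function.update_of_ne (Finset.ne_of_mem_erase hx)]
    rw [hrest, ← mul_assoc]
    congr 1
    simp only [Function.update_self, hl]
    have h3 : amp1 n M g s = 1 / Real.sqrt ((M : ℝ) * (n g : ℝ) ^ k) := by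
      have : k < M := by omega
      simp [amp1, s, this]
    have h4 : amp1 n M g ⟨⟨k + 1, hmv⟩, w'⟩ = 1 / Real.sqrt ((M : ℝ) * (n g : ℝ) ^ (k + 1)) := by
      have : k + 1 < M := h2
      simp [amp1, this]
    rw [h3, h4]
    have h5 : (M : ℝ) * (n g : ℝ) ^ (k + 1) = ((M : ℝ) * (n g : ℝ) ^ k) * (n g : ℝ) := by ring
    have h8 : Real.sqrt (((M : ℝ) * (n g : ℝ) ^ k) * (n g : ℝ))
        = Real.sqrt ((M : ℝ) * (n g : ℝ) ^ k) * Real.sqrt (n g : ℝ) :=
      Real.sqrt_mul (by positivity) _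
    rw [h5, h8]
    have h6 : 0 < Real.sqrt ((M : ℝ) * (n g : ℝ) ^ k) := Real.sqrt_pos.2 (by positivity)
    have h7 : 0 < Real.sqrt (n g : ℝ) := Real.sqrt_pos.2 hng
    generalize Real.sqrt ((M : ℝ) * (n g : ℝ) ^ k) = A at h6 ⊢
    generalize Real.sqrt (n g : ℝ) = B at h7 ⊢
    field_simp

/-- Choice of `M`: the interior mass tends to one. -/
lemma exists_M (c : ℕ) {τ : ℝ} (hτ : 0 < τ) : ∃ M : ℕ, 1 ≤ M ∧ 1 - τ ≤ (1 - 1 / (M : ℝ)) ^ c := by
  -- Bernoulli
  obtain ⟨M, hM⟩ := exists_nat_gt ((c : ℝ) / τ + 1)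
  have hM1 : (1 : ℝ) < M := by
    have : 0 ≤ (c : ℝ) / τ := by positivity
    linarith
  have hM1' : 1 ≤ M := by
    have : (1 : ℝ) ≤ M := hM1.le
    exact_mod_cast this
  refine ⟨M, hM1', ?_⟩
  have hM0 : (0 : ℝ) < M := by linarith
  have hb := one_add_mul_le_pow (a := -(1 / (M : ℝ))) (n := c) (by
    have : 1 / (M : ℝ) ≤ 1 := by rw [div_le_one hM0]; exact hM1.le
    linarith)
  have h2 : (c : ℝ) * (1 / (M : ℝ)) ≤ τ := by
    have h3 : (c : ℝ) / τ < M := by linarith
    rw [div_lt_iff₀ hτ] at h3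
    rw [mul_one_div, div_le_iff₀ hM0]
    linarith
  calc 1 - τ ≤ 1 + (c : ℝ) * -(1 / (M : ℝ)) := by nlinarith
    _ ≤ (1 + -(1 / (M : ℝ))) ^ c := hb
    _ = _ := by rw [sub_eq_add_neg]

end Crest.Agent.PR.QStackInst
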