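import Crest.Agent.PR.Defs

/-!
# WP StratB: repeated attempts and combination of components by tensoring strategies.

Public tools: `tensorV`, `cev`, `cev_tensor`, `ev_tensor`, `nsq_tensor`, `ev_add_left`, `ev_add_right`,
`sum_kronecker`, `kronecker_sum`.
-/

namespace Crest.Agent.PR

open Crest.MathPhysics.NonlocalGame Matrix
open scoped Kronecker ComplexOrder

section Tensor

variable {I I' J J' : Type} [Fintype I] [Fintype I'] [Fintype J] [Fintype J']

/-- tensor product of two bipartite vectors -/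
def tensorV (Ψ : I × J → ℂ) (φ : I' × J' → ℂ) : (I × I') × (J × J') → ℂ :=
  fun p => Ψ (p.1.1, p.2.1) * φ (p.1.2, p.2.2)

/-- the complex version of `ev` -/
noncomputable def cev {I J : Type} [Fintype I] [Fintype J] (ψ : I × J → ℂ)
    (M : Matrix I I ℂ) (N : Matrix J J ℂ) : ℂ :=
  dotProduct (star ψ) ((M ⊗ₖ N).mulVec ψ)

lemma nsq_eq_dot {I : Type} [Fintype I] (ψ : I → ℂ) :
    ((nsq ψ : ℝ) : ℂ) = dotProduct (star ψ) ψ := by
  simp only [nsq, Complex.ofReal_sum, Complex.ofReal_pow, dotProduct, Pi.star_apply]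
  refine Finset.sum_congr rfl fun i _ => ?_
  simp [Complex.conj_mul']

lemma cev_one_one {I J : Type} [Fintype I] [Fintype J] [DecidableEq I] [DecidableEq J]
    (ψ : I × J → ℂ) : cev ψ (1 : Matrix I I ℂ) (1 : Matrix J J ℂ) = (nsq ψ : ℝ) := by
  rw [cev, one_kronecker_one, one_mulVec, nsq_eq_dot]

/-- reorganise a sum over `(I × I') × (J × J')` -/
lemma sum_tensor_index (f : I × J → I' × J' → ℂ) :
    ∑ p : (I × I') × (J × J'), f (p.1.1, p.2.1) (p.1.2, p.2.2)
      = ∑ q : I × J, ∑ r : I' × J', f q r := by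
  simp only [Fintype.sum_prod_type]
  refine Finset.sum_congr rfl fun i _ => ?_
  exact Finset.sum_comm

lemma dot_tensor (Ψ Ψ' : I × J → ℂ) (φ φ' : I' × J' → ℂ) :
    dotProduct (star (tensorV Ψ φ)) (tensorV Ψ' φ')
      = dotProduct (star Ψ) Ψ' * dotProduct (star φ) φ' := by
  simp only [dotProduct, Pi.star_apply, tensorV]
  rw [Finset.sum_mul_sum]
  rw [← sum_tensor_index (fun q r => star (Ψ q) * Ψ' q * (star (φ r) * φ' r))]
  refine Finset.sum_congr rfl fun p _ => ?_
  rw [star_mul']; ring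

lemma mulVec_tensor (Ψ : I × J → ℂ) (φ : I' × J' → ℂ) (A : Matrix I I ℂ) (B : Matrix I' I' ℂ)
    (C : Matrix J J ℂ) (D : Matrix J' J' ℂ) :
    (((A ⊗ₖ B) ⊗ₖ (C ⊗ₖ D)).mulVec (tensorV Ψ φ))
      = tensorV ((A ⊗ₖ C).mulVec Ψ) ((B ⊗ₖ D).mulVec φ) := by
  funext p
  obtain ⟨⟨i, a⟩, ⟨j, b⟩⟩ := p
  simp only [mulVec, dotProduct, tensorV, kroneckerMap_apply]
  rw [Finset.sum_mul_sum]
  rw [← sum_tensor_index (fun q r => A i q.1 * C j q.2 * Ψ q * (B a r.1 * D b r.2 * φ r))]
  refine Finset.sum_congr rfl fun p _ => ?_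
  ring

lemma cev_tensor (Ψ : I × J → ℂ) (φ : I' × J' → ℂ) (A : Matrix I I ℂ) (B : Matrix I' I' ℂ)
    (C : Matrix J J ℂ) (D : Matrix J' J' ℂ) :
    cev (tensorV Ψ φ) (A ⊗ₖ B) (C ⊗ₖ D) = cev Ψ A C * cev φ B D := by
  rw [cev, mulVec_tensor, dot_tensor]; rfl

lemma nsq_tensor (Ψ : I × J → ℂ) (φ : I' × J' → ℂ) :
    nsq (tensorV Ψ φ) = nsq Ψ * nsq φ := by
  have := dot_tensor Ψ Ψ φ φ
  rw [← nsq_eq_dot, ← nsq_eq_dot, ← nsq_eq_dot] at this
  exact_mod_cast this

end Tensor

section Real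
variable {I J : Type} [Fintype I] [Fintype J]

/-- for Hermitian operators the expectation is real -/
lemma cev_eq_ev [DecidableEq I] [DecidableEq J] (ψ : I × J → ℂ) {M : Matrix I I ℂ}
    {N : Matrix J J ℂ} (hM : M.IsHermitian) (hN : N.IsHermitian) :
    cev ψ M N = (ev ψ M N : ℝ) := by
  have h : (M ⊗ₖ N).IsHermitian := by
    rw [IsHermitian, conjTranspose_kronecker, hM.eq, hN.eq]
  have h2 := h.im_star_dotProduct_mulVec_self ψ
  apply Complex.ext
  · rfl
  · simpa [cev] using h2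

lemma ev_one_one [DecidableEq I] [DecidableEq J] (ψ : I × J → ℂ) :
    ev ψ (1 : Matrix I I ℂ) (1 : Matrix J J ℂ) = nsq ψ := by
  have := cev_one_one ψ
  have h2 : ev ψ (1 : Matrix I I ℂ) (1 : Matrix J J ℂ)
      = (cev ψ (1 : Matrix I I ℂ) (1 : Matrix J J ℂ)).re := rfl
  rw [h2, this, Complex.ofReal_re]

/-- positivity of `ev` (local version) -/
lemma ev_nonneg_aux [DecidableEq I] [DecidableEq J] (ψ : I × J → ℂ) {M : Matrix I I ℂ}
    {N : Matrix J J ℂ} (hM : M.PosSemidef) (hN : N.PosSemidef) : 0 ≤ ev ψ M N := by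
  have h := (hM.kronecker hN).dotProduct_mulVec_nonneg ψ
  exact (Complex.le_def.mp h).1

lemma ev_add_left (ψ : I × J → ℂ) (M M' : Matrix I I ℂ) (N : Matrix J J ℂ) :
    ev ψ (M + M') N = ev ψ M N + ev ψ M' N := by
  simp only [ev, add_kronecker, add_mulVec, dotProduct_add, Complex.add_re]

lemma ev_add_right (ψ : I × J → ℂ) (M : Matrix I I ℂ) (N N' : Matrix J J ℂ) :
    ev ψ M (N + N') = ev ψ M N + ev ψ M N' := by
  simp only [ev, kronecker_add, add_mulVec, dotProduct_add, Complex.add_re]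

lemma ev_tensor {I' J' : Type} [Fintype I'] [Fintype J'] [DecidableEq I] [DecidableEq J]
    [DecidableEq I'] [DecidableEq J'] (Ψ : I × J → ℂ) (φ : I' × J' → ℂ)
    {A : Matrix I I ℂ} {B : Matrix I' I' ℂ} {C : Matrix J J ℂ} {D : Matrix J' J' ℂ}
    (hA : A.IsHermitian) (hB : B.IsHermitian) (hC : C.IsHermitian) (hD : D.IsHermitian) :
    ev (tensorV Ψ φ) (A ⊗ₖ B) (C ⊗ₖ D) = ev Ψ A C * ev φ B D := by
  have h := cev_tensor Ψ φ A B C D
  rw [cev_eq_ev Ψ hA hC, cev_eq_ev φ hB hD] at h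
  have h2 : ev (tensorV Ψ φ) (A ⊗ₖ B) (C ⊗ₖ D) = (cev (tensorV Ψ φ) (A ⊗ₖ B) (C ⊗ₖ D)).re := rfl
  rw [h2, h, ← Complex.ofReal_mul, Complex.ofReal_re]

end Real

lemma sum_kronecker {α I J : Type} [Fintype α] (X : α → Matrix I I ℂ) (Y : Matrix J J ℂ) :
    (∑ a, X a) ⊗ₖ Y = ∑ a, X a ⊗ₖ Y := by
  ext p q
  simp [Matrix.sum_apply, kroneckerMap_apply, Finset.sum_mul]

lemma kronecker_sum {α I J : Type} [Fintype α] (Y : Matrix I I ℂ) (X : α → Matrix J J ℂ) :
    Y ⊗ₖ (∑ a, X a) = ∑ a, Y ⊗ₖ X a := by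
  ext p q
  simp [Matrix.sum_apply, kroneckerMap_apply, Finset.mul_sum]

private lemma posSemidef_one' {I : Type} [Fintype I] [DecidableEq I] :
    (1 : Matrix I I ℂ).PosSemidef := PosSemidef.one

/-- (Strat-8) repeated attempts. -/
theorem attempt_strategy (G : Game) (hnA : 0 < G.nA) (hnB : 0 < G.nB)
    {I J : Type} [Fintype I] [Fintype J] [DecidableEq I] [DecidableEq J]
    (Ψ : I × J → ℂ) (hΨ : nsq Ψ = 1)
    (Ox : Fin G.nX → Fin G.nA → Matrix I I ℂ) (Oy : Fin G.nY → Fin G.nB → Matrix J J ℂ)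
    (hOx : ∀ x a, (Ox x a).PosSemidef) (hOy : ∀ y b, (Oy y b).PosSemidef)
    (hQx : ∀ x, (1 - ∑ a, Ox x a).PosSemidef) (hQy : ∀ y, (1 - ∑ b, Oy y b).PosSemidef)
    (T : ℕ) :
    ∃ (I' J' : Type) (_ : Fintype I') (_ : Fintype J') (_ : DecidableEq I') (_ : DecidableEq J')
      (St : OneStrat G I' J'), ∀ x y a b,
        (∑ t ∈ Finset.range T, (ev Ψ (1 - ∑ a, Ox x a) (1 - ∑ b, Oy y b)) ^ t) * ev Ψ (Ox x a) (Oy y b)
          ≤ ev St.ψ (St.M x a) (St.N y b) := by
  induction T with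
  | zero =>
    let a₀ : Fin G.nA := ⟨0, hnA⟩
    let b₀ : Fin G.nB := ⟨0, hnB⟩
    refine ⟨Unit, Unit, inferInstance, inferInstance, inferInstance, inferInstance,
      ⟨fun _ => 1, by simp [nsq], fun _ a => if a = a₀ then 1 else 0,
        fun _ b => if b = b₀ then 1 else 0, ?_, ?_⟩, ?_⟩
    · intro x
      refine ⟨fun a => ?_, by simp⟩
      dsimp only
      split_ifs
      · exact PosSemidef.one
      · exact PosSemidef.zero
    · intro y
      refine ⟨fun b => ?_, by simp⟩
      dsimp only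
      split_ifs
      · exact PosSemidef.one
      · exact PosSemidef.zero
    · intro x y a b
      simp only [Finset.range_zero, Finset.sum_empty, zero_mul]
      apply ev_nonneg_aux
      · split_ifs
        · exact PosSemidef.one
        · exact PosSemidef.zero
      · split_ifs
        · exact PosSemidef.one
        · exact PosSemidef.zero
  | succ T ih =>
    obtain ⟨I', J', iI, iJ, dI, dJ, St, hSt⟩ := ih
    refine ⟨I × I', J × J', inferInstance, inferInstance, inferInstance, inferInstance,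
      ⟨tensorV Ψ St.ψ, ?_,
        fun x a => Ox x a ⊗ₖ (1 : Matrix I' I' ℂ) + (1 - ∑ a, Ox x a) ⊗ₖ St.M x a,
        fun y b => Oy y b ⊗ₖ (1 : Matrix J' J' ℂ) + (1 - ∑ b, Oy y b) ⊗ₖ St.N y b, ?_, ?_⟩, ?_⟩
    · rw [nsq_tensor, hΨ, St.ψ_norm, one_mul]
    · intro x
      refine ⟨fun a => ((hOx x a).kronecker PosSemidef.one).add
        ((hQx x).kronecker ((St.M_povm x).1 a)), ?_⟩
      rw [Finset.sum_add_distrib, ← sum_kronecker, ← kronecker_sum, (St.M_povm x).2,
        ← add_kronecker]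
      simp
    · intro y
      refine ⟨fun b => ((hOy y b).kronecker PosSemidef.one).add
        ((hQy y).kronecker ((St.N_povm y).1 b)), ?_⟩
      rw [Finset.sum_add_distrib, ← sum_kronecker, ← kronecker_sum, (St.N_povm y).2,
        ← add_kronecker]
      simp
    · intro x y a b
      set q := ev Ψ (1 - ∑ a, Ox x a) (1 - ∑ b, Oy y b) with hq
      have hq0 : 0 ≤ q := ev_nonneg_aux _ (hQx x) (hQy y)
      have hOH := (hOx x a).1
      have hOH' := (hOy y b).1
      have hQH := (hQx x).1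
      have hQH' := (hQy y).1
      have hMH := ((St.M_povm x).1 a).1
      have hNH := ((St.N_povm y).1 b).1
      have h1H : (1 : Matrix I' I' ℂ).IsHermitian := isHermitian_one
      have h1H' : (1 : Matrix J' J' ℂ).IsHermitian := isHermitian_one
      simp only
      rw [ev_add_left, ev_add_right, ev_add_right, ev_tensor _ _ hOH h1H hOH' h1H',
        ev_tensor _ _ hOH h1H hQH' hNH, ev_tensor _ _ hQH hMH hOH' h1H',
        ev_tensor _ _ hQH hMH hQH' hNH, ev_one_one, St.ψ_norm, mul_one, ← hq]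
      have c1 : 0 ≤ ev Ψ (Ox x a) (1 - ∑ b, Oy y b) * ev St.ψ 1 (St.N y b) :=
        mul_nonneg (ev_nonneg_aux _ (hOx x a) (hQy y))
          (ev_nonneg_aux _ PosSemidef.one ((St.N_povm y).1 b))
      have c2 : 0 ≤ ev Ψ (1 - ∑ a, Ox x a) (Oy y b) * ev St.ψ (St.M x a) 1 :=
        mul_nonneg (ev_nonneg_aux _ (hQx x) (hOy y b))
          (ev_nonneg_aux _ ((St.M_povm x).1 a) PosSemidef.one)
      have c3 := mul_le_mul_of_nonneg_left (hSt x y a b) hq0
      have hsum : ∑ t ∈ Finset.range (T + 1), q ^ t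
          = q * ∑ t ∈ Finset.range T, q ^ t + 1 := by
        rw [Finset.sum_range_succ', Finset.mul_sum]
        simp [pow_succ']
      rw [hsum]
      nlinarith

/-- auxiliary form of `combine_components`: induction on the components treated so far. -/
private theorem combine_aux (G : Game) {ι : Type} [Fintype ι] [DecidableEq ι]
    (lx : Fin G.nX → ι) (ly : Fin G.nY → ι)
    {I J : Type} [Fintype I] [Fintype J] [DecidableEq I] [DecidableEq J]
    (u : ι → I × J → ℂ) (hu : ∀ c, nsq (u c) = 1)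
    (Ex : Fin G.nX → Fin G.nA → Matrix I I ℂ) (Ey : Fin G.nY → Fin G.nB → Matrix J J ℂ)
    (hEx : ∀ x, IsPOVM (Ex x)) (hEy : ∀ y, IsPOVM (Ey y)) (s : Finset ι) :
    ∃ (I' J' : Type) (_ : Fintype I') (_ : Fintype J') (_ : DecidableEq I') (_ : DecidableEq J')
      (St : OneStrat G I' J'), ∀ x y a b, lx x = ly y → lx x ∈ s →
        ev St.ψ (St.M x a) (St.N y b) = ev (u (lx x)) (Ex x a) (Ey y b) := by
  induction s using Finset.induction_on with
  | empty =>
    by_cases hι : Nonempty ι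
    · obtain ⟨c⟩ := hι
      exact ⟨I, J, inferInstance, inferInstance, inferInstance, inferInstance,
        ⟨u c, hu c, Ex, Ey, hEx, hEy⟩, by simp⟩
    · have hι' : IsEmpty ι := not_nonempty_iff.mp hι
      refine ⟨Unit, Unit, inferInstance, inferInstance, inferInstance, inferInstance,
        ⟨fun _ => 1, by simp [nsq], fun x => (hι'.elim (lx x)), fun y => (hι'.elim (ly y)),
          fun x => (hι'.elim (lx x)), fun y => (hι'.elim (ly y))⟩, by simp⟩
  | insert c s _ ih =>
    obtain ⟨I', J', iI, iJ, dI, dJ, St, hSt⟩ := ih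
    refine ⟨I' × I, J' × J, inferInstance, inferInstance, inferInstance, inferInstance,
      ⟨tensorV St.ψ (u c), ?_,
        fun x a => if lx x = c then (1 : Matrix I' I' ℂ) ⊗ₖ Ex x a else St.M x a ⊗ₖ (1 : Matrix I I ℂ),
        fun y b => if ly y = c then (1 : Matrix J' J' ℂ) ⊗ₖ Ey y b else St.N y b ⊗ₖ (1 : Matrix J J ℂ),
        ?_, ?_⟩, ?_⟩
    · rw [nsq_tensor, St.ψ_norm, hu c, one_mul]
    · intro x
      by_cases hc : lx x = c
      · simp only [hc, if_true]
        refine ⟨fun a => PosSemidef.one.kronecker ((hEx x).1 a), ?_⟩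
        rw [← kronecker_sum, (hEx x).2, one_kronecker_one]
      · simp only [hc, if_false]
        refine ⟨fun a => ((St.M_povm x).1 a).kronecker PosSemidef.one, ?_⟩
        rw [← sum_kronecker, (St.M_povm x).2, one_kronecker_one]
    · intro y
      by_cases hc : ly y = c
      · simp only [hc, if_true]
        refine ⟨fun a => PosSemidef.one.kronecker ((hEy y).1 a), ?_⟩
        rw [← kronecker_sum, (hEy y).2, one_kronecker_one]
      · simp only [hc, if_false]
        refine ⟨fun a => ((St.N_povm y).1 a).kronecker PosSemidef.one, ?_⟩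
        rw [← sum_kronecker, (St.N_povm y).2, one_kronecker_one]
    · intro x y a b hxy hmem
      by_cases hc : lx x = c
      · have hc' : ly y = c := hxy ▸ hc
        simp only [hc, hc', if_true]
        rw [ev_tensor _ _ isHermitian_one ((hEx x).1 a).1 isHermitian_one ((hEy y).1 b).1,
          ev_one_one, St.ψ_norm, one_mul]
      · have hc' : ¬ ly y = c := hxy ▸ hc
        have hs : lx x ∈ s := by
          rcases Finset.mem_insert.mp hmem with h | h
          · exact absurd h hc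
          · exact h
        simp only [hc, hc', if_false]
        rw [ev_tensor _ _ ((St.M_povm x).1 a).1 isHermitian_one ((St.N_povm y).1 b).1 isHermitian_one,
          ev_one_one, hu c, mul_one]
        exact hSt x y a b hxy hs

/-- (Strat-9) A family of states `u c` (one per support component) and one pair of measurements: a single strategy
plays `u (lx x)` on questions with `lx x = ly y`.  Tensor product over `ι`. -/
theorem combine_components (G : Game) {ι : Type} [Fintype ι] [DecidableEq ι]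
    (lx : Fin G.nX → ι) (ly : Fin G.nY → ι)
    {I J : Type} [Fintype I] [Fintype J] [DecidableEq I] [DecidableEq J]
    (u : ι → I × J → ℂ) (hu : ∀ c, nsq (u c) = 1)
    (Ex : Fin G.nX → Fin G.nA → Matrix I I ℂ) (Ey : Fin G.nY → Fin G.nB → Matrix J J ℂ)
    (hEx : ∀ x, IsPOVM (Ex x)) (hEy : ∀ y, IsPOVM (Ey y)) :
    ∃ (I' J' : Type) (_ : Fintype I') (_ : Fintype J') (_ : DecidableEq I') (_ : DecidableEq J')
      (St : OneStrat G I' J'), ∀ x y a b, lx x = ly y →
        ev St.ψ (St.M x a) (St.N y b) = ev (u (lx x)) (Ex x a) (Ey y b) := by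
  obtain ⟨I', J', iI, iJ, dI, dJ, St, hSt⟩ :=
    combine_aux G lx ly u hu Ex Ey hEx hEy Finset.univ
  exact ⟨I', J', iI, iJ, dI, dJ, St, fun x y a b h => hSt x y a b h (Finset.mem_univ _)⟩

end Crest.Agent.PR
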