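import Crest.Agent.PR.Defs

/-!
# Interface of the parallel repetition modules.  ALL STUBS (`sorry`).

Every stub is owned by one WP; the owner proves the theorem with the SAME NAME and SAME STATEMENT in
the file named in the comment (namespace `Crest.Agent.PR`), and lands it.  `PR/Main.lean` assembles against the
stubs first, then imports the real files.
Never import this file from `S0536.lean`, `S0537.lean`.
-/

namespace Crest.Agent.PR.Stub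

open Crest.MathPhysics.NonlocalGame Matrix
open scoped Kronecker ComplexOrder
open Crest.Agent.PR

/-! ## WP Strat: file `PR/Strat.lean` -/

/-- (Strat-1) `ev` of positive operators is nonnegative. -/
theorem ev_nonneg {I J : Type} [Fintype I] [Fintype J] [DecidableEq I] [DecidableEq J]
    (ψ : I × J → ℂ) {M : Matrix I I ℂ} {N : Matrix J J ℂ} (hM : M.PosSemidef) (hN : N.PosSemidef) :
    0 ≤ ev ψ M N := sorry

/-- (Strat-2) every one-play strategy on arbitrary finite types has value at most `v`. -/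
theorem OneStrat.val_le {G : Game} {v : ℝ}
    (hv : ∀ (dA dB : ℕ) (S : Strategy G 1 dA dB), S.probWinsAtLeast 1 ≤ v)
    {I J : Type} [Fintype I] [Fintype J] [DecidableEq I] [DecidableEq J] (St : OneStrat G I J) :
    St.val ≤ v := sorry

/-- (Strat-3) `0 ≤ v` and answers exist as soon as a strategy for `k ≥ 1` exists. -/
theorem v_nonneg {G : Game} {v : ℝ}
    (hv : ∀ (dA dB : ℕ) (S : Strategy G 1 dA dB), S.probWinsAtLeast 1 ≤ v)
    {k dA dB : ℕ} (S : Strategy G k dA dB) (hk : 1 ≤ k) : 0 ≤ v ∧ 0 < G.nA ∧ 0 < G.nB := sorry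

section wqLemmas
variable {G : Game} {I J : Type} [Fintype I] [Fintype J] [DecidableEq I] [DecidableEq J]
  {Ex : Fin G.nX → Fin G.nA → Matrix I I ℂ} {Ey : Fin G.nY → Fin G.nB → Matrix J J ℂ}

/-- (Strat-4) -/
theorem wq_nonneg (hEx : ∀ x, IsPOVM (Ex x)) (hEy : ∀ y, IsPOVM (Ey y)) (x y) (K : I × J → ℂ) :
    0 ≤ wq G Ex Ey x y K := sorry

/-- (Strat-5) -/
theorem wq_le_nsq (hEx : ∀ x, IsPOVM (Ex x)) (hEy : ∀ y, IsPOVM (Ey y)) (x y) (K : I × J → ℂ) :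
    wq G Ex Ey x y K ≤ nsq K := sorry

/-- (Strat-6) The quadratic form is Lipschitz: `|⟨K|W|K⟩ - ⟨K'|W|K'⟩| ≤ ‖K-K'‖ (‖K‖+‖K'‖)` for `0 ≤ W ≤ 1`. -/
theorem wq_sub_le (hEx : ∀ x, IsPOVM (Ex x)) (hEy : ∀ y, IsPOVM (Ey y)) (x y) (K K' : I × J → ℂ) :
    wq G Ex Ey x y K ≤ wq G Ex Ey x y K' + nrm (K - K') * (nrm K + nrm K') := sorry

/-- (Strat-7) convexity: for a finite average. -/
theorem wq_avg_le (hEx : ∀ x, IsPOVM (Ex x)) (hEy : ∀ y, IsPOVM (Ey y)) (x y)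
    {ι : Type} [Fintype ι] [Nonempty ι] (K : ι → I × J → ℂ) :
    wq G Ex Ey x y (fun p => (Fintype.card ι : ℂ)⁻¹ * ∑ l, K l p)
      ≤ (Fintype.card ι : ℝ)⁻¹ * ∑ l, wq G Ex Ey x y (K l) := sorry

end wqLemmas

/-- (Strat-8) repeated attempts.  One-shot state `Ψ`, sub-measurements `Ox`, `Oy` (each sums to at most `1`).
`q x y = ⟨Ψ|(1-Qx)⊗(1-Qy)|Ψ⟩`. Proof by induction on `T`: strategy_{T+1} = copy ⊗ strategy_T,
`M^a = O^a ⊗ 1 + (1-Q) ⊗ M_T^a`, cross terms are nonnegative. -/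
theorem attempt_strategy (G : Game) (hnA : 0 < G.nA) (hnB : 0 < G.nB)
    {I J : Type} [Fintype I] [Fintype J] [DecidableEq I] [DecidableEq J]
    (Ψ : I × J → ℂ) (hΨ : nsq Ψ = 1)
    (Ox : Fin G.nX → Fin G.nA → Matrix I I ℂ) (Oy : Fin G.nY → Fin G.nB → Matrix J J ℂ)
    (hOx : ∀ x a, (Ox x a).PosSemidef) (hOy : ∀ y b, (Oy y b).PosSemidef)
    (hQx : ∀ x, (1 - ∑ a, Ox x a).PosSemidef) (hQy : ∀ y, (1 - ∑ b, Oy y b).PosSemidef)
    (T : ℕ) :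
    ∃ (I' J' : Type) (_ : Fintype I') (_ : Fintype J') (_ : DecidableEq I') (_ : DecidableEq J')
      (St : OneStrat G I' J'), ∀ x y a b,
        (∑ t ∈ Finset.range T, (ev Ψ (1 - ∑ a, Ox x a) (1 - ∑ b, Oy y b)) ^ t) * ev Ψ (Ox x a) (Oy y b)
          ≤ ev St.ψ (St.M x a) (St.N y b) := sorry

/-- (Strat-9) A family of states `u c` (one per support component) and one pair of measurements: a single strategy
plays `u (lx x)` on questions with `lx x = ly y`.  Tensor product over `ι`. -/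
theorem combine_components (G : Game) {ι : Type} [Fintype ι] [DecidableEq ι]
    (lx : Fin G.nX → ι) (ly : Fin G.nY → ι)
    {I J : Type} [Fintype I] [Fintype J] [DecidableEq I] [DecidableEq J]
    (u : ι → I × J → ℂ) (hu : ∀ c, nsq (u c) = 1)
    (Ex : Fin G.nX → Fin G.nA → Matrix I I ℂ) (Ey : Fin G.nY → Fin G.nB → Matrix J J ℂ)
    (hEx : ∀ x, IsPOVM (Ex x)) (hEy : ∀ y, IsPOVM (Ey y)) :
    ∃ (I' J' : Type) (_ : Fintype I') (_ : Fintype J') (_ : DecidableEq I') (_ : DecidableEq J')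
      (St : OneStrat G I' J'), ∀ x y a b, lx x = ly y →
        ev St.ψ (St.M x a) (St.N y b) = ev (u (lx x)) (Ex x a) (Ey y b) := sorry

/-! ## WP PartA: file `PR/PartA.lean` -/

/-- The classical reduction. -/
theorem partA {G : Game} {k dA dB : ℕ} (S : Strategy G k dA dB) (hk : 1 ≤ k)
    (hnA : 0 < G.nA) (hnB : 0 < G.nB)
    (v δ c₁ c₂ ε₀ : ℝ) (hv0 : 0 ≤ v) (hδ : 0 < δ) (hδv : δ < 1 - v)
    (hc₁ : 0 ≤ c₁) (hc₂ : 0 ≤ c₂) (hε₀ : 0 < ε₀) (hε₀δ : ε₀ ≤ δ / 16)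
    (hc : c₁ + c₂ * Real.sqrt ε₀ ≤ δ / 2)
    (hML : ∀ C : Finset (Fin k), C.card < k → 0 < winSub S C →
      ∑ i ∈ Cᶜ, winSub S (insert i C) ≤ ((k : ℝ) - C.card) * winSub S C *
        (v + c₁ + c₂ * Real.sqrt (((C.card : ℝ) * Real.log ((G.nA * G.nB : ℕ) : ℝ)
          + Real.log (1 / winSub S C)) / ((k : ℝ) - C.card)))) :
    S.probWinsAtLeast ((v + δ) * k) ≤
      Real.exp (-(3 / 32 * δ * ε₀ * k / (1 + Real.log ((G.nA * G.nB : ℕ) : ℝ)))) := sorry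

/-! ## WP Hell: file `PR/Hell.lean` -/

/-- KL chain + Hellinger ≤ KL.  `r i e = E[g | z_i = e] / E[g]`. -/
theorem hellinger_chain {k : ℕ} {Zt : Type} [Fintype Zt] [DecidableEq Zt] (μ : Zt → ℝ) (hμ : ∀ e, 0 ≤ μ e)
    (hμ1 : ∑ e, μ e = 1) (g : (Fin k → Zt) → ℝ) (hg0 : ∀ z, 0 ≤ g z) (hg1 : ∀ z, g z ≤ 1)
    (hZ : 0 < ∑ z, (∏ j, μ (z j)) * g z) (D : Finset (Fin k)) :
    ∑ i ∈ D, ∑ e, μ e * (Real.sqrt
        ((∑ z, (∏ j ∈ Finset.univ.erase i, μ (z j)) * (if z i = e then g z else 0))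
          / (∑ z, (∏ j, μ (z j)) * g z)) - 1) ^ 2
      ≤ Real.log (1 / ∑ z, (∏ j, μ (z j)) * g z) := sorry

/-! ## WP Gauge: file `PR/Gauge.lean` -/

/-- The resolvent dilation gauge. -/
theorem gauge_exists {d : Type} [Fintype d] [DecidableEq d] {ι : Type} [Fintype ι] [DecidableEq ι]
    (S : ι → Matrix d d ℂ) (hS : ∀ c, (S c).PosSemidef) :
    ∃ (J : Type) (_ : Fintype J) (_ : DecidableEq J) (Gm : ι → Matrix J d ℂ),
      (∀ c, (Gm c)ᴴ * Gm c = S c) ∧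
      ∀ (π : ι → ℝ) (c₀ : ι), (∀ c, 0 ≤ π c) → ∑ c, π c = 1 → S c₀ = ∑ c, ((π c : ℝ) : ℂ) • S c →
        ((∑ c, ((π c : ℝ) : ℂ) • xlog (S c)) - xlog (S c₀)
          - ∑ c, ((π c : ℝ) : ℂ) • ((Gm c - Gm c₀)ᴴ * (Gm c - Gm c₀))).PosSemidef := sorry

/-! ## WP Vectors: file `PR/Vectors.lean` -/

/-- From operators on the original state to big vectors. -/
theorem gauge_vectors (G : Game) (hnA : 0 < G.nA) (hnB : 0 < G.nB) {dA dB : ℕ} {Ω : Type} [Fintype Ω] [DecidableEq Ω]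
    (ψ : Fin dA × Fin dB → ℂ) (w : Ω → ℝ) (hw : ∀ ω, 0 ≤ w ω)
    (T : Fin G.nX → Ω → Fin G.nA → Matrix (Fin dA) (Fin dA) ℂ)
    (S : Fin G.nY → Ω → Fin G.nB → Matrix (Fin dB) (Fin dB) ℂ)
    (hT : ∀ x ω a, (T x ω a).PosSemidef) (hS : ∀ y ω b, (S y ω b).PosSemidef)
    (hZ : 0 < coordZ (G := G) ψ w T S) :
    ∃ (I J : Type) (_ : Fintype I) (_ : Fintype J) (_ : DecidableEq I) (_ : DecidableEq J)
      (Ex : Fin G.nX → Fin G.nA → Matrix I I ℂ) (Ey : Fin G.nY → Fin G.nB → Matrix J J ℂ)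
      (K : Fin G.nX → Fin G.nY → I × J → ℂ) (L : Fin G.nX → I × J → ℂ) (M : Fin G.nY → I × J → ℂ),
      (∀ x, IsPOVM (Ex x)) ∧ (∀ y, IsPOVM (Ey y)) ∧
      (∀ x y, nsq (K x y) = coordMass (G := G) ψ w T S x y / coordZ (G := G) ψ w T S) ∧
      (∑ x, ∑ y, G.prob x y * nsq (K x y - L x) ≤ aTerm (G := G) ψ w T S / coordZ (G := G) ψ w T S) ∧
      (∑ x, ∑ y, G.prob x y * nsq (K x y - M y) ≤ bTerm (G := G) ψ w T S / coordZ (G := G) ψ w T S) ∧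
      (∑ x, ∑ y, G.prob x y * wq G Ex Ey x y (K x y) = coordWin (G := G) ψ w T S / coordZ (G := G) ψ w T S) := sorry

/-! ## WP ChainOps: file `PR/ChainOps.lean` -/

/-- (Chain end) the potential is nonnegative for `0 ≤ T, S ≤ 1`. -/
theorem Phi_nonneg {I J : Type} [Fintype I] [Fintype J] [DecidableEq I] [DecidableEq J]
    (ψ : I × J → ℂ) {T : Matrix I I ℂ} {S : Matrix J J ℂ} (hT : T.PosSemidef) (hS : S.PosSemidef)
    (hT1 : (1 - T).PosSemidef) (hS1 : (1 - S).PosSemidef) :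
    0 ≤ -ev ψ (xlog T) S - ev ψ T (xlog S) := sorry

/-- (Chain start) `Φ(T,S) ≤ -N log N`, `N = ev ψ T S`: expand in the eigenbases, concavity of `-t log t`. -/
theorem Phi_le_negMulLog {I J : Type} [Fintype I] [Fintype J] [DecidableEq I] [DecidableEq J]
    (ψ : I × J → ℂ) (hψ : nsq ψ = 1) {T : Matrix I I ℂ} {S : Matrix J J ℂ}
    (hT : T.PosSemidef) (hS : S.PosSemidef) :
    -ev ψ (xlog T) S - ev ψ T (xlog S) ≤ Real.negMulLog (ev ψ T S) := sorry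

/-! ## WP Chain: file `PR/Chain.lean` -/

/-- The chain potential: for a `k`-fold strategy and a set `C` of coordinates. -/
theorem chain_main {G : Game} {k dA dB : ℕ} (St : Strategy G k dA dB) (C : Finset (Fin k))
    (hnA : 0 < G.nA) (hnB : 0 < G.nB) (hZ : 0 < winSub St C) :
    ∃ (Ω : Type) (_ : Fintype Ω) (_ : DecidableEq Ω) (w : Fin k → Ω → ℝ)
      (T : Fin k → Fin G.nX → Ω → Fin G.nA → Matrix (Fin dA) (Fin dA) ℂ)
      (S : Fin k → Fin G.nY → Ω → Fin G.nB → Matrix (Fin dB) (Fin dB) ℂ),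
      (∀ i ω, 0 ≤ w i ω) ∧ (∀ i x ω a, (T i x ω a).PosSemidef) ∧ (∀ i y ω b, (S i y ω b).PosSemidef) ∧
      (∀ i ∉ C, coordZ (G := G) St.ψ (w i) (T i) (S i) = winSub St C) ∧
      (∀ i ∉ C, coordWin (G := G) St.ψ (w i) (T i) (S i) = winSub St (insert i C)) ∧
      (∑ i ∈ Cᶜ, (aTerm (G := G) St.ψ (w i) (T i) (S i) + bTerm (G := G) St.ψ (w i) (T i) (S i))
        ≤ 2 * winSub St C * ((C.card : ℝ) * Real.log ((G.nA * G.nB : ℕ) : ℝ) + Real.log (1 / winSub St C))) ∧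
      (∑ i ∈ Cᶜ, ∑ x, ∑ y, G.prob x y *
          (Real.sqrt (coordMass (G := G) St.ψ (w i) (T i) (S i) x y / winSub St C) - 1) ^ 2
        ≤ Real.log (1 / winSub St C)) := sorry

/-! ## WP Paths: file `PR/RoundPaths.lean` -/

/-- Rounding for S0537. -/
theorem round_paths (G : Game) (v : ℝ)
    (hv : ∀ (dA dB : ℕ) (S : Strategy G 1 dA dB), S.probWinsAtLeast 1 ≤ v) (κ : ℝ)
    (hκ : ∀ z : Fin G.nX × Fin G.nY, 0 < G.prob z.1 z.2 → ∀ w ∈ G.supportComponent z,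
      8 * ((G.supportComponent z).card - 1 : ℝ) * (∑ u ∈ G.supportComponent z, G.prob u.1 u.2)
        ≤ κ * G.prob w.1 w.2)
    {I J : Type} [Fintype I] [Fintype J] [DecidableEq I] [DecidableEq J] [Nonempty (I × J)]
    (Ex : Fin G.nX → Fin G.nA → Matrix I I ℂ) (Ey : Fin G.nY → Fin G.nB → Matrix J J ℂ)
    (hEx : ∀ x, IsPOVM (Ex x)) (hEy : ∀ y, IsPOVM (Ey y))
    (K : Fin G.nX → Fin G.nY → I × J → ℂ) (L : Fin G.nX → I × J → ℂ) (M : Fin G.nY → I × J → ℂ)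
    (hK : ∑ x, ∑ y, G.prob x y * nsq (K x y) = 1) :
    ∑ x, ∑ y, G.prob x y * wq G Ex Ey x y (K x y) ≤ v + 2 * Real.sqrt
      (κ * (∑ x, ∑ y, G.prob x y * (nsq (K x y - L x) + nsq (K x y - M y)))
        + 2 * ∑ x, ∑ y, G.prob x y * (nrm (K x y) - 1) ^ 2) := sorry

/-! ## WP QCS: file `PR/RoundQCS.lean` (with submodules) -/

/-- Rounding for S0536: quantum correlated sampling. -/
theorem round_qcs (G : Game) (v : ℝ) (hv0 : 0 ≤ v)
    (hv : ∀ (dA dB : ℕ) (S : Strategy G 1 dA dB), S.probWinsAtLeast 1 ≤ v)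
    (hnA : 0 < G.nA) (hnB : 0 < G.nB)
    {I J : Type} [Fintype I] [Fintype J] [DecidableEq I] [DecidableEq J] [Nonempty (I × J)]
    (Ex : Fin G.nX → Fin G.nA → Matrix I I ℂ) (Ey : Fin G.nY → Fin G.nB → Matrix J J ℂ)
    (hEx : ∀ x, IsPOVM (Ex x)) (hEy : ∀ y, IsPOVM (Ey y))
    (K : Fin G.nX → Fin G.nY → I × J → ℂ) (L : Fin G.nX → I × J → ℂ) (M : Fin G.nY → I × J → ℂ)
    (hK : ∑ x, ∑ y, G.prob x y * nsq (K x y) = 1) (K' : ℕ) (hK' : 1 ≤ K') :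
    ∑ x, ∑ y, G.prob x y * wq G Ex Ey x y (K x y) ≤ v
      + 2 * Real.sqrt (∑ x, ∑ y, G.prob x y * (nrm (K x y) - 1) ^ 2) + 12 / (K' : ℝ)
      + 95 * K' * Real.sqrt (∑ x, ∑ y, G.prob x y * (nsq (K x y - L x) + nsq (K x y - M y))) := sorry

end Crest.Agent.PR.Stub
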