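import Crest.Agent.PR.Defs

/-!
# Interface of the QCS layers of `round_qcs` (stubs).  See the blueprint sections (Q0)..(Q7).
-/

namespace Crest.Agent.PR.Stub

open Crest.MathPhysics.NonlocalGame Matrix
open scoped Kronecker ComplexOrder
open Crest.Agent.PR

/-! ## WP QStack: file `PR/QStack.lean` -/

/-- (Q3) catalytic bucket measurement + repeated attempts. `Γ = ∑_g √n_g P_x^g P'_y^g`;
`Nn = ∑_g n_g (tr P_x^g + tr P'_y^g) - ∑_{g,g'} min(n_g,n_g') tr(P_x^g P'_y^g')`. -/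
theorem catalyst_strategy (G : Game) (hnA : 0 < G.nA) (hnB : 0 < G.nB)
    {V : Type} [Fintype V] [DecidableEq V] [Nonempty V]
    {𝔾 : Type} [Fintype 𝔾] [DecidableEq 𝔾] (n : 𝔾 → ℕ) (hn : ∀ g, 0 < n g)
    (P : Fin G.nX → 𝔾 → Matrix V V ℂ) (P' : Fin G.nY → 𝔾 → Matrix V V ℂ)
    (hPh : ∀ x g, (P x g).IsHermitian) (hPi : ∀ x g g', P x g * P x g' = if g = g' then P x g else 0)
    (hP'h : ∀ y g, (P' y g).IsHermitian) (hP'i : ∀ y g g', P' y g * P' y g' = if g = g' then P' y g else 0)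
    (F : Fin G.nX → Fin G.nA → Matrix V V ℂ) (E : Fin G.nY → Fin G.nB → Matrix V V ℂ)
    (hF : ∀ x, IsPOVM (F x)) (hE : ∀ y, IsPOVM (E y)) (τ : ℝ) (hτ : 0 < τ) :
    ∃ (I' J' : Type) (_ : Fintype I') (_ : Fintype J') (_ : DecidableEq I') (_ : DecidableEq J')
      (St : OneStrat G I' J'), ∀ x y a b,
        let Γ : Matrix V V ℂ := ∑ g, ((Real.sqrt (n g) : ℝ) : ℂ) • (P x g * P' y g)
        let Nn : ℝ := ∑ g, (n g : ℝ) * ((P x g).trace.re + (P' y g).trace.re)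
          - ∑ g, ∑ g', (min (n g) (n g') : ℝ) * (P x g * P' y g').trace.re
        0 < Nn → (1 - τ) * ev (vecM Γ) (F x a) (E y b) / Nn ≤ ev St.ψ (St.M x a) (St.N y b) := sorry

/-! ## WP QKernel: file `PR/QKernel.lean` -/

/-- (Q4) amplitude bounds: `φ² ≤ t < b φ²`. -/
theorem qAmp_bounds (K' : ℕ) (hK' : 1 ≤ K') (l : ℕ) (hl : l < K') {t : ℝ} (ht : 0 < t) :
    qAmp K' l (qBucket K' l t) ^ 2 ≤ t ∧ t < (1 + 1 / (K' : ℝ)) * qAmp K' l (qBucket K' l t) ^ 2 := sorry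

/-- (Q4) the exact integer ladder: on `[g₀,g₁]`, `n_g = c_l φ²`. -/
theorem qLadder (K' : ℕ) (hK' : 1 ≤ K') (l : ℕ) (g₀ g₁ : ℤ) :
    ∃ c : ℝ, 0 < c ∧ ∀ g : ℤ, g₀ ≤ g → g ≤ g₁ →
      (((K' + 1) ^ (g - g₀).toNat * K' ^ (g₁ - g).toNat : ℕ) : ℝ) = c * qAmp K' l g ^ 2 := sorry

/-- (Q5) the averaged kernel is close to `α`. -/
theorem qKernel (K' : ℕ) (hK' : 1 ≤ K') {α β : ℝ} (hα : 0 ≤ α) (hβ : 0 ≤ β) :
    |(∑ l ∈ Finset.range K', (if 0 < α ∧ 0 < β ∧ qBucket K' l (α ^ 2) = qBucket K' l (β ^ 2)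
          then qAmp K' l (qBucket K' l (α ^ 2)) else 0)) / (K' : ℝ) - α|
      ≤ 3 / (2 * (K' : ℝ)) * α + 8 * K' * |α - β| := sorry

/-! ## WP QCore: file `PR/QCore.lean` -/

/-- (Q0, Q4, Q5, Q6) from `catalyst_strategy`, `qKernel`: the conclusion of correlated sampling for positive matrices. -/
theorem qcs_core (G : Game) (v : ℝ)
    (hv : ∀ (dA dB : ℕ) (S : Strategy G 1 dA dB), S.probWinsAtLeast 1 ≤ v)
    (hnA : 0 < G.nA) (hnB : 0 < G.nB)
    {V : Type} [Fintype V] [DecidableEq V] [Nonempty V]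
    (A : Fin G.nX → Matrix V V ℂ) (B : Fin G.nY → Matrix V V ℂ)
    (hA : ∀ x, (A x).PosSemidef) (hB : ∀ y, (B y).PosSemidef)
    (F : Fin G.nX → Fin G.nA → Matrix V V ℂ) (E : Fin G.nY → Fin G.nB → Matrix V V ℂ)
    (hF : ∀ x, IsPOVM (F x)) (hE : ∀ y, IsPOVM (E y)) (K' : ℕ) (hK' : 1 ≤ K') :
    ∑ x, ∑ y, G.prob x y * wq G F E x y (vecM (A x)) ≤ v + ∑ x, ∑ y, G.prob x y *
      (max 0 ((nrm (vecM (A x)) + nrm (vecM (A x - B y))) ^ 2 - 1)
        + 3 / (K' : ℝ) * nrm (vecM (A x)) ^ 2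
        + 16 * K' * (nrm (vecM (A x)) * nrm (vecM (A x - B y))))  := sorry

/-! ## WP QAraki: file `PR/QAraki.lean` -/

/-- (Q1) Araki-type inequality for absolute values. -/
theorem araki_abs {I J : Type} [Fintype I] [Fintype J] [DecidableEq I] [DecidableEq J]
    (L M : Matrix I J ℂ) :
    nsq (vecM (absM L - absM M)) ≤ 2 * nsq (vecM (L - M)) := sorry

/-- (Q1) polar pull-back: a POVM on `I` turns into a POVM on `J` giving the same statistics on `|L|`.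
The POVM is `W^H E^a W + (1 - W^H W) 1[a = a₀]`, `W = L |L|⁺`. -/
theorem polar_povm {I J α : Type} [Fintype I] [Fintype J] [DecidableEq I] [DecidableEq J]
    [Fintype α] [DecidableEq α] [Nonempty α] (L : Matrix I J ℂ) (E : α → Matrix I I ℂ) (hE : IsPOVM E) :
    ∃ F : α → Matrix J J ℂ, IsPOVM F ∧ ∀ (a : α) (N : Matrix J J ℂ),
      ev (vecM L) (E a) N = ev (vecM (absM L)) (F a) N := sorry

/-- `|L|` is positive semidefinite, with the same Hilbert-Schmidt norm as `L`. -/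
theorem absM_psd {I J : Type} [Fintype I] [Fintype J] [DecidableEq I] [DecidableEq J] (L : Matrix I J ℂ) :
    (absM L).PosSemidef ∧ nsq (vecM (absM L)) = nsq (vecM L) := sorry

end Crest.Agent.PR.Stub
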